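import Mathlib
import Vale.Agent.Lib.P162.Defs

/-!
# P162 (Thorp shuffle): the probability that two of the `k` tracked cards share a coin

`bad_mass`: after `s ≥ m` shuffles (`2 ^ m ≤ h`), started from distinct positions, the
probability that some two tracked cards share a coin is at most `k (k - 1) / 2 ^ m`.
The statements of the jobs `cast_eq_iff`, `Kmat_pow_support`, `Kmat_pow_nonneg`, `lump_pair`
and `pair_partner` enter as hypotheses in their skeleton form.
-/

namespace Vale.Agent.Lib.P162.H19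

open Finset BigOperators

/-- The mass of the states in which the cards `j`, `j'` are partners. -/
theorem partner_mass (h k : ℕ) [NeZero h]
    (hlump : ∀ (x : Fin k → ZMod (2 * h)) (j j' : Fin k), j ≠ j' → ∀ (s : ℕ)
      (w : Fin 2 → ZMod (2 * h)),
      ∑ y ∈ univ.filter (fun y : Fin k → ZMod (2 * h) => y j = w 0 ∧ y j' = w 1),
          (Kmat h k ^ s) x y
        = (Kmat h 2 ^ s) ![x j, x j'] w)
    (hpair : ∀ (w0 : Fin 2 → ZMod (2 * h)), w0 0 ≠ w0 1 → ∀ (m s : ℕ), 2 ^ m ≤ h → m ≤ s →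
      ∑ w ∈ univ.filter (fun w : Fin 2 → ZMod (2 * h) => w 1 = w 0 + (h : ZMod (2 * h))),
          (Kmat h 2 ^ s) w0 w ≤ 1 / 2 ^ m)
    (x : Fin k → ZMod (2 * h)) (hx : Function.Injective x) (m s : ℕ) (hm : 2 ^ m ≤ h)
    (hs : m ≤ s) (j j' : Fin k) (hjj : j ≠ j') :
    ∑ z ∈ univ.filter (fun z : Fin k → ZMod (2 * h) => z j' = z j + (h : ZMod (2 * h))),
        (Kmat h k ^ s) x z ≤ 1 / 2 ^ m := by
  have hmaps : ∀ z ∈ univ.filter
      (fun z : Fin k → ZMod (2 * h) => z j' = z j + (h : ZMod (2 * h))),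
      (![z j, z j'] : Fin 2 → ZMod (2 * h)) ∈ univ.filter
        (fun w : Fin 2 → ZMod (2 * h) => w 1 = w 0 + (h : ZMod (2 * h))) := by
    intro z hz
    rw [Finset.mem_filter] at hz ⊢
    exact ⟨Finset.mem_univ _, by simpa using hz.2⟩
  rw [← Finset.sum_fiberwise_of_maps_to hmaps]
  have hfib : ∀ w ∈ univ.filter
      (fun w : Fin 2 → ZMod (2 * h) => w 1 = w 0 + (h : ZMod (2 * h))),
      ∑ z ∈ (univ.filter
          (fun z : Fin k → ZMod (2 * h) => z j' = z j + (h : ZMod (2 * h)))).filter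
            (fun z => (![z j, z j'] : Fin 2 → ZMod (2 * h)) = w), (Kmat h k ^ s) x z
        = (Kmat h 2 ^ s) ![x j, x j'] w := by
    intro w hw
    rw [Finset.mem_filter] at hw
    rw [← hlump x j j' hjj s w]
    apply Finset.sum_congr _ (fun _ _ => rfl)
    ext z
    simp only [Finset.mem_filter, Finset.mem_univ, true_and]
    constructor
    · rintro ⟨_, hzw⟩
      have h0 := congrFun hzw 0
      have h1 := congrFun hzw 1
      simp only [Matrix.cons_val_zero, Matrix.cons_val_one] at h0 h1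
      exact ⟨h0, h1⟩
    · rintro ⟨h0, h1⟩
      refine ⟨by rw [h1, h0, hw.2], ?_⟩
      funext i
      fin_cases i
      · simpa using h0
      · simpa using h1
  rw [Finset.sum_congr rfl hfib]
  exact hpair ![x j, x j'] (by simpa using fun hxx => hjj (hx hxx)) m s hm hs

/-- The mass of the bad set. -/
theorem bad_mass (h k : ℕ) [NeZero h] [DecidablePred (bad h k)]
    (hcast : ∀ u v : ZMod (2 * h),
      (ZMod.cast u : ZMod h) = ZMod.cast v ↔ v = u ∨ v = u + (h : ZMod (2 * h)))
    (hsupp : ∀ (x : Fin k → ZMod (2 * h)), Function.Injective x → ∀ (s : ℕ)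
      (y : Fin k → ZMod (2 * h)), (Kmat h k ^ s) x y ≠ 0 → Function.Injective y)
    (hnn : ∀ (s : ℕ) (x y : Fin k → ZMod (2 * h)), 0 ≤ (Kmat h k ^ s) x y)
    (hlump : ∀ (x : Fin k → ZMod (2 * h)) (j j' : Fin k), j ≠ j' → ∀ (s : ℕ)
      (w : Fin 2 → ZMod (2 * h)),
      ∑ y ∈ univ.filter (fun y : Fin k → ZMod (2 * h) => y j = w 0 ∧ y j' = w 1),
          (Kmat h k ^ s) x y
        = (Kmat h 2 ^ s) ![x j, x j'] w)
    (hpair : ∀ (w0 : Fin 2 → ZMod (2 * h)), w0 0 ≠ w0 1 → ∀ (m s : ℕ), 2 ^ m ≤ h → m ≤ s →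
      ∑ w ∈ univ.filter (fun w : Fin 2 → ZMod (2 * h) => w 1 = w 0 + (h : ZMod (2 * h))),
          (Kmat h 2 ^ s) w0 w ≤ 1 / 2 ^ m)
    (x : Fin k → ZMod (2 * h)) (hx : Function.Injective x) (m s : ℕ) (hm : 2 ^ m ≤ h)
    (hs : m ≤ s) :
    ∑ z ∈ univ.filter (fun z : Fin k → ZMod (2 * h) => bad h k z), (Kmat h k ^ s) x z
      ≤ (k : ℝ) * (k - 1) / 2 ^ m := by
  -- pointwise: a bad state in the support has a pair of partners
  have hpt : ∀ z : Fin k → ZMod (2 * h),
      (if bad h k z then (Kmat h k ^ s) x z else 0)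
        ≤ ∑ p ∈ (univ : Finset (Fin k)).offDiag,
            (if z p.2 = z p.1 + (h : ZMod (2 * h)) then (Kmat h k ^ s) x z else 0) := by
    intro z
    have hsum_nn : 0 ≤ ∑ p ∈ (univ : Finset (Fin k)).offDiag,
        (if z p.2 = z p.1 + (h : ZMod (2 * h)) then (Kmat h k ^ s) x z else 0) :=
      Finset.sum_nonneg fun p _ => by
        split_ifs
        · exact hnn s x z
        · exact le_rfl
    by_cases hb : bad h k z
    · rw [if_pos hb]
      by_cases hK : (Kmat h k ^ s) x z = 0
      · exact hK.le.trans hsum_nn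
      · have hzinj : Function.Injective z := hsupp x hx s z hK
        obtain ⟨j, j', hjj, hc⟩ := hb
        have hpart : z j' = z j + (h : ZMod (2 * h)) := by
          rcases (hcast (z j) (z j')).mp hc with h1 | h1
          · exact absurd (hzinj h1).symm hjj
          · exact h1
        have hmem : (j, j') ∈ (univ : Finset (Fin k)).offDiag := by
          rw [Finset.mem_offDiag]
          exact ⟨Finset.mem_univ _, Finset.mem_univ _, hjj⟩
        have hle := Finset.single_le_sum (f := fun p : Fin k × Fin k =>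
            (if z p.2 = z p.1 + (h : ZMod (2 * h)) then (Kmat h k ^ s) x z else 0))
          (fun p _ => by
            show 0 ≤ (if z p.2 = z p.1 + (h : ZMod (2 * h)) then (Kmat h k ^ s) x z else 0)
            split_ifs
            · exact hnn s x z
            · exact le_rfl) hmem
        simp only [hpart, if_true] at hle
        exact hle
    · rw [if_neg hb]
      exact hsum_nn
  have hcard : (((univ : Finset (Fin k)).offDiag.card : ℕ) : ℝ) = (k : ℝ) * (k - 1) := by
    rw [Finset.offDiag_card, Finset.card_univ, Fintype.card_fin,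
      Nat.cast_sub (Nat.le_mul_self k), Nat.cast_mul]
    ring
  calc ∑ z ∈ univ.filter (fun z : Fin k → ZMod (2 * h) => bad h k z), (Kmat h k ^ s) x z
      = ∑ z, (if bad h k z then (Kmat h k ^ s) x z else 0) := by
        rw [Finset.sum_filter]
    _ ≤ ∑ z, ∑ p ∈ (univ : Finset (Fin k)).offDiag,
          (if z p.2 = z p.1 + (h : ZMod (2 * h)) then (Kmat h k ^ s) x z else 0) :=
        Finset.sum_le_sum fun z _ => hpt z
    _ = ∑ p ∈ (univ : Finset (Fin k)).offDiag, ∑ z,
          (if z p.2 = z p.1 + (h : ZMod (2 * h)) then (Kmat h k ^ s) x z else 0) :=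
        Finset.sum_comm
    _ ≤ ∑ p ∈ (univ : Finset (Fin k)).offDiag, (1 / 2 ^ m : ℝ) := by
        refine Finset.sum_le_sum fun p hp => ?_
        rw [Finset.mem_offDiag] at hp
        rw [← Finset.sum_filter]
        exact partner_mass h k hlump hpair x hx m s hm hs p.1 p.2 hp.2.2
    _ = (k : ℝ) * (k - 1) / 2 ^ m := by
        rw [Finset.sum_const, nsmul_eq_mul, hcard]
        ring

end Vale.Agent.Lib.P162.H19
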