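import Mathlib
import Vale.Agent.Lib.P162.Defs

/-!
# P162 (Thorp shuffle): a new card whose coin is not used by the old cards moves freely

`stepProb_cons_free`: if the coin of the card `z 0` is different from the coins of the cards
`z 1, …, z j`, then the one-step kernel of the `j + 1` cards factorizes as the free one-card kernel
of `z 0` times the one-step kernel of the other `j` cards.
-/

namespace Vale.Agent.Lib.P162.H19

open Finset BigOperators

/-- flip the coin with index `a` -/
def flipAt (h : ℕ) (a : ZMod h) (c : ZMod h → Bool) : ZMod h → Bool :=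
  Function.update c a (!(c a))

theorem flipAt_invol (h : ℕ) (a : ZMod h) : Function.Involutive (flipAt h a) := by
  intro c
  unfold flipAt
  simp

theorem move_flipAt_ne (h : ℕ) (a : ZMod h) (c : ZMod h → Bool) (p : ZMod (2 * h))
    (hp : (ZMod.cast p : ZMod h) ≠ a) : move h (flipAt h a c) p = move h c p := by
  unfold move flipAt
  rw [Function.update_of_ne hp]

theorem move_flipAt_eq (h : ℕ) [NeZero h] (c : ZMod h → Bool) (p y : ZMod (2 * h)) :
    (if move h c p = y then (1 : ℝ) else 0)
      + (if move h (flipAt h (ZMod.cast p) c) p = y then (1 : ℝ) else 0)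
      = 2 * Wmat h p y := by
  have h01 : (2 : ZMod (2 * h)) * p ≠ 2 * p + 1 := by
    intro e
    have h1 : (1 : ZMod (2 * h)) = 0 := by
      have := congrArg (fun t => t - 2 * p) e
      simp only [sub_self, add_sub_cancel_left] at this
      exact this.symm
    have h2 : (2 * h : ℕ) ∣ 1 := by
      have := (ZMod.natCast_eq_zero_iff 1 (2 * h)).mp (by simpa using h1)
      exact this
    have h3 : 2 * h ≤ 1 := Nat.le_of_dvd one_pos h2
    have h4 : 0 < h := Nat.pos_of_ne_zero (NeZero.ne h)
    omega
  unfold move flipAt Wmat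
  rw [Function.update_self]
  cases hd : decide (h ≤ p.val) <;> cases hc : c (ZMod.cast p) <;>
    simp only [Bool.xor_false, Bool.xor_true, Bool.not_false, Bool.not_true,
      if_true, if_false, add_zero, Bool.false_eq_true] <;>
    by_cases e0 : y = 2 * p <;> by_cases e1 : y = 2 * p + 1 <;>
    simp [e0, e1, eq_comm, h01]

/-- the number of coin vectors as a sum of indicators -/
theorem card_filter_real {α : Type*} [Fintype α] (P : α → Prop) [DecidablePred P] :
    ((univ.filter P).card : ℝ) = ∑ c : α, (if P c then (1 : ℝ) else 0) := by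
  rw [Finset.card_filter]
  push_cast
  rfl

/-- **Free new card.** If the coin of the card `z 0` is not the coin of any of the cards
`z 1, …, z j`, the one-step kernel factorizes. -/
theorem stepProb_cons_free (h j : ℕ) [NeZero h] (z y : Fin (j + 1) → ZMod (2 * h))
    (hfree : ∀ i : Fin j, (ZMod.cast (z i.succ) : ZMod h) ≠ ZMod.cast (z 0)) :
    stepProb h (j + 1) z y
      = Wmat h (z 0) (y 0) * stepProb h j (fun i => z i.succ) (fun i => y i.succ) := by
  set a : ZMod h := ZMod.cast (z 0) with ha
  set F : (ZMod h → Bool) → ℝ := fun c => if move h c (z 0) = y 0 then (1 : ℝ) else 0 with hF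
  set G : (ZMod h → Bool) → ℝ :=
    fun c => if ∀ i : Fin j, move h c (z i.succ) = y i.succ then (1 : ℝ) else 0 with hG
  have hN1 : ((univ.filter fun c : ZMod h → Bool => ∀ i, move h c (z i) = y i).card : ℝ)
      = ∑ c : ZMod h → Bool, F c * G c := by
    rw [card_filter_real]
    apply Finset.sum_congr rfl
    intro c _
    simp only [hF, hG]
    have hiff : (∀ i, move h c (z i) = y i)
        ↔ (move h c (z 0) = y 0 ∧ ∀ i : Fin j, move h c (z i.succ) = y i.succ) :=
      Fin.forall_fin_succ
    by_cases h0 : move h c (z 0) = y 0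
    · by_cases h1 : ∀ i : Fin j, move h c (z i.succ) = y i.succ
      · rw [if_pos (hiff.mpr ⟨h0, h1⟩), if_pos h0, if_pos h1, one_mul]
      · rw [if_neg (fun hh => h1 (hiff.mp hh).2), if_neg h1, mul_zero]
    · rw [if_neg (fun hh => h0 (hiff.mp hh).1), if_neg h0, zero_mul]
  have hN2 : ((univ.filter fun c : ZMod h → Bool =>
      ∀ i : Fin j, move h c (z i.succ) = y i.succ).card : ℝ) = ∑ c : ZMod h → Bool, G c := by
    rw [card_filter_real]
  have hGflip : ∀ c, G (flipAt h a c) = G c := by
    intro c
    simp only [hG]
    have : ∀ i : Fin j, move h (flipAt h a c) (z i.succ) = move h c (z i.succ) :=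
      fun i => move_flipAt_ne h a c (z i.succ) (hfree i)
    simp only [this]
  have hflip : ∑ c : ZMod h → Bool, F c * G c
      = ∑ c : ZMod h → Bool, F (flipAt h a c) * G c := by
    rw [← Equiv.sum_comp (Function.Involutive.toPerm (flipAt h a) (flipAt_invol h a))
      (fun c => F c * G c)]
    apply Finset.sum_congr rfl
    intro c _
    simp only [Function.Involutive.coe_toPerm]
    rw [hGflip c]
  have h2 : 2 * ∑ c : ZMod h → Bool, F c * G c
      = 2 * Wmat h (z 0) (y 0) * ∑ c : ZMod h → Bool, G c := by
    have : 2 * ∑ c : ZMod h → Bool, F c * G c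
        = ∑ c : ZMod h → Bool, (F c + F (flipAt h a c)) * G c := by
      rw [two_mul]
      nth_rewrite 2 [hflip]
      rw [← Finset.sum_add_distrib]
      apply Finset.sum_congr rfl
      intro c _
      ring
    rw [this, Finset.mul_sum]
    apply Finset.sum_congr rfl
    intro c _
    have hc : F c + F (flipAt h a c) = 2 * Wmat h (z 0) (y 0) :=
      move_flipAt_eq h c (z 0) (y 0)
    rw [hc]
  have h3 : ∑ c : ZMod h → Bool, F c * G c
      = Wmat h (z 0) (y 0) * ∑ c : ZMod h → Bool, G c := by
    linarith
  unfold stepProb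
  rw [hN1, hN2, h3]
  ring

end Vale.Agent.Lib.P162.H19
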