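import Mathlib
import Vale.Agent.Lib.P162.Defs
import Vale.Agent.Lib.P162.helper36.MoveInj
import Vale.Agent.Lib.P162.helper23.ProdTv
import Vale.Agent.Lib.P162.helper19.ConsFree

/-!
# P162 (Thorp shuffle): the free positions are carried onto the free positions

`comm_pow`: summing the `s`-step kernel of `j + 1` cards over all starting positions `p` of the
new card that are not occupied by the old cards `w` gives the `s`-step kernel of the old cards,
times the indicator that the final position `q` of the new card is not occupied by the final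
positions `v` of the old cards. (Each shuffle is a bijection of the positions.)
-/

namespace Vale.Agent.Lib.P162.H19

open Finset BigOperators

/-- the one-step kernel of `j + 1` cards in terms of coin vectors -/
theorem Kmat_cons (h j : ℕ) [NeZero h] (w v : Fin j → ZMod (2 * h)) (p q : ZMod (2 * h)) :
    Kmat h (j + 1) (Fin.cons p w) (Fin.cons q v)
      = (∑ c : ZMod h → Bool, (if move h c p = q then (1 : ℝ) else 0)
          * (if ∀ i, move h c (w i) = v i then (1 : ℝ) else 0)) / 2 ^ h := by
  show ((univ.filter fun c : ZMod h → Bool =>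
      ∀ i, move h c ((Fin.cons p w : Fin (j + 1) → ZMod (2 * h)) i)
        = (Fin.cons q v : Fin (j + 1) → ZMod (2 * h)) i).card : ℝ) / 2 ^ h = _
  rw [card_filter_real]
  congr 1
  apply Finset.sum_congr rfl
  intro c _
  have hiff : (∀ i, move h c ((Fin.cons p w : Fin (j + 1) → ZMod (2 * h)) i)
        = (Fin.cons q v : Fin (j + 1) → ZMod (2 * h)) i)
      ↔ (move h c p = q ∧ ∀ i : Fin j, move h c (w i) = v i) := by
    rw [Fin.forall_fin_succ]
    simp only [Fin.cons_zero, Fin.cons_succ]
  by_cases h0 : move h c p = q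
  · by_cases h1 : ∀ i : Fin j, move h c (w i) = v i
    · rw [if_pos (hiff.mpr ⟨h0, h1⟩), if_pos h0, if_pos h1, one_mul]
    · rw [if_neg (fun hh => h1 (hiff.mp hh).2), if_neg h1, mul_zero]
  · rw [if_neg (fun hh => h0 (hiff.mp hh).1), if_neg h0, zero_mul]

/-- the one-step kernel of `j` cards in terms of coin vectors -/
theorem Kmat_count (h j : ℕ) [NeZero h] (w v : Fin j → ZMod (2 * h)) :
    Kmat h j w v
      = (∑ c : ZMod h → Bool, (if ∀ i, move h c (w i) = v i then (1 : ℝ) else 0)) / 2 ^ h := by
  show ((univ.filter fun c : ZMod h → Bool => ∀ i, move h c (w i) = v i).card : ℝ) / 2 ^ h = _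
  rw [card_filter_real]

/-- **Commutation, one step.** -/
theorem comm_step (h j : ℕ) [NeZero h] (w v : Fin j → ZMod (2 * h)) (q : ZMod (2 * h)) :
    ∑ p ∈ univ.filter (fun p : ZMod (2 * h) => ∀ i, w i ≠ p),
        Kmat h (j + 1) (Fin.cons p w) (Fin.cons q v)
      = if ∀ i, v i ≠ q then Kmat h j w v else 0 := by
  rw [Finset.sum_congr rfl (fun p _ => Kmat_cons h j w v p q), ← Finset.sum_div,
    Finset.sum_comm]
  have hinner : ∀ c : ZMod h → Bool,
      ∑ p ∈ univ.filter (fun p : ZMod (2 * h) => ∀ i, w i ≠ p),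
        (if move h c p = q then (1 : ℝ) else 0)
          * (if ∀ i, move h c (w i) = v i then (1 : ℝ) else 0)
      = if ∀ i, v i ≠ q then (if ∀ i, move h c (w i) = v i then (1 : ℝ) else 0) else 0 := by
    intro c
    by_cases hc : ∀ i, move h c (w i) = v i
    · simp only [if_pos hc, mul_one]
      by_cases hq : ∀ i, v i ≠ q
      · rw [if_pos hq]
        obtain ⟨p0, hp0⟩ := (Finite.injective_iff_surjective.mp (H36.move_injective h c)) q
        have hmem : p0 ∈ univ.filter (fun p : ZMod (2 * h) => ∀ i, w i ≠ p) := by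
          rw [Finset.mem_filter]
          refine ⟨Finset.mem_univ _, fun i hi => hq i ?_⟩
          rw [← hc i, hi, hp0]
        have hterm : ∀ p ∈ univ.filter (fun p : ZMod (2 * h) => ∀ i, w i ≠ p),
            (if move h c p = q then (1 : ℝ) else 0) = if p = p0 then 1 else 0 := by
          intro p _
          by_cases hp : p = p0
          · rw [if_pos hp, if_pos (by rw [hp, hp0])]
          · rw [if_neg hp, if_neg (fun e => hp (H36.move_injective h c (e.trans hp0.symm)))]
        rw [Finset.sum_congr rfl hterm, Finset.sum_ite_eq', if_pos hmem]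
      · rw [if_neg hq]
        obtain ⟨i, hi'⟩ := not_forall.mp hq
        have hi : v i = q := not_not.mp hi'
        apply Finset.sum_eq_zero
        intro p hp
        rw [Finset.mem_filter] at hp
        rw [if_neg]
        intro e
        apply hp.2 i
        apply H36.move_injective h c
        rw [hc i, hi, e]
    · simp only [if_neg hc, mul_zero, Finset.sum_const_zero]
      split_ifs <;> rfl
  rw [Finset.sum_congr rfl (fun c _ => hinner c)]
  by_cases hq : ∀ i, v i ≠ q
  · rw [if_pos hq, Finset.sum_congr rfl (fun c _ => if_pos hq), Kmat_count]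
  · rw [if_neg hq, Finset.sum_congr rfl (fun c _ => if_neg hq), Finset.sum_const_zero, zero_div]

/-- **Commutation.** -/
theorem comm_pow (h j : ℕ) [NeZero h] (s : ℕ) (w v : Fin j → ZMod (2 * h))
    (q : ZMod (2 * h)) :
    ∑ p ∈ univ.filter (fun p : ZMod (2 * h) => ∀ i, w i ≠ p),
        (Kmat h (j + 1) ^ s) (Fin.cons p w) (Fin.cons q v)
      = if ∀ i, v i ≠ q then (Kmat h j ^ s) w v else 0 := by
  induction s generalizing w with
  | zero =>
    rw [pow_zero, pow_zero, Matrix.one_apply, Finset.sum_congr rfl (fun p _ =>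
      Matrix.one_apply (i := (Fin.cons p w : Fin (j + 1) → ZMod (2 * h)))
        (j := (Fin.cons q v : Fin (j + 1) → ZMod (2 * h))))]
    have hiff : ∀ p : ZMod (2 * h),
        ((Fin.cons p w : Fin (j + 1) → ZMod (2 * h)) = Fin.cons q v) ↔ (p = q ∧ w = v) :=
      fun p => Fin.cons_inj
    by_cases hwv : w = v
    · subst hwv
      have hterm : ∀ p ∈ univ.filter (fun p : ZMod (2 * h) => ∀ i, w i ≠ p),
          (if (Fin.cons p w : Fin (j + 1) → ZMod (2 * h)) = Fin.cons q w then (1 : ℝ) else 0)
            = if p = q then 1 else 0 := by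
        intro p _
        by_cases hp : p = q
        · rw [if_pos hp, if_pos ((hiff p).mpr ⟨hp, rfl⟩)]
        · rw [if_neg hp, if_neg (fun e => hp ((hiff p).mp e).1)]
      rw [Finset.sum_congr rfl hterm, Finset.sum_ite_eq', if_pos rfl]
      simp only [Finset.mem_filter, Finset.mem_univ, true_and]
    · rw [if_neg hwv]
      have hterm : ∀ p ∈ univ.filter (fun p : ZMod (2 * h) => ∀ i, w i ≠ p),
          (if (Fin.cons p w : Fin (j + 1) → ZMod (2 * h)) = Fin.cons q v then (1 : ℝ) else 0)
            = 0 := by
        intro p _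
        rw [if_neg (fun e => hwv ((hiff p).mp e).2)]
      rw [Finset.sum_congr rfl hterm, Finset.sum_const_zero]
      split_ifs <;> rfl
  | succ s ih =>
    rw [pow_succ', pow_succ', Matrix.mul_apply]
    have h1 : ∀ p : ZMod (2 * h),
        (Kmat h (j + 1) * Kmat h (j + 1) ^ s) (Fin.cons p w) (Fin.cons q v)
        = ∑ p' : ZMod (2 * h), ∑ w' : Fin j → ZMod (2 * h),
            Kmat h (j + 1) (Fin.cons p w) (Fin.cons p' w')
              * (Kmat h (j + 1) ^ s) (Fin.cons p' w') (Fin.cons q v) := by
      intro p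
      rw [Matrix.mul_apply]
      exact H23.sum_fin_succ_fun j _
    rw [Finset.sum_congr rfl (fun p _ => h1 p), Finset.sum_comm]
    have h2 : ∀ p' : ZMod (2 * h),
        ∑ p ∈ univ.filter (fun p : ZMod (2 * h) => ∀ i, w i ≠ p),
          ∑ w' : Fin j → ZMod (2 * h),
            Kmat h (j + 1) (Fin.cons p w) (Fin.cons p' w')
              * (Kmat h (j + 1) ^ s) (Fin.cons p' w') (Fin.cons q v)
        = ∑ w' : Fin j → ZMod (2 * h),
            (if ∀ i, w' i ≠ p' then Kmat h j w w' else 0)
              * (Kmat h (j + 1) ^ s) (Fin.cons p' w') (Fin.cons q v) := by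
      intro p'
      rw [Finset.sum_comm]
      apply Finset.sum_congr rfl
      intro w' _
      rw [← Finset.sum_mul, comm_step h j w w' p']
    rw [Finset.sum_congr rfl (fun p' _ => h2 p'), Finset.sum_comm]
    have h3 : ∀ w' : Fin j → ZMod (2 * h),
        ∑ p' : ZMod (2 * h), (if ∀ i, w' i ≠ p' then Kmat h j w w' else 0)
              * (Kmat h (j + 1) ^ s) (Fin.cons p' w') (Fin.cons q v)
        = Kmat h j w w' * (if ∀ i, v i ≠ q then (Kmat h j ^ s) w' v else 0) := by
      intro w'
      rw [← ih w', Finset.mul_sum, Finset.sum_filter]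
      apply Finset.sum_congr rfl
      intro p' _
      by_cases hp : ∀ i, w' i ≠ p'
      · rw [if_pos hp, if_pos hp]
      · rw [if_neg hp, if_neg hp, zero_mul]
    rw [Finset.sum_congr rfl (fun w' _ => h3 w')]
    by_cases hq : ∀ i, v i ≠ q
    · rw [if_pos hq]
      exact Finset.sum_congr rfl (fun w' _ => by rw [if_pos hq])
    · rw [if_neg hq]
      exact Finset.sum_eq_zero (fun w' _ => by rw [if_neg hq, mul_zero])

end Vale.Agent.Lib.P162.H19
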