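import Mathlib
import Vale.Agent.Lib.P162.Defs

/-!
# P162 (Thorp shuffle): lumping along an arbitrary choice of tracked cards

`lump_comp`: for every map `φ : Fin j → Fin k` the cards `x (φ 0), …, x (φ (j - 1))` among the
`k` tracked cards evolve as the `j`-card chain: the sum of the `s`-step kernel of the `k` cards
over the targets `y` with `y ∘ φ = v` is the `s`-step kernel of the `j` cards.
`lump_tail` is the case `φ = Fin.succ`.
-/

namespace Vale.Agent.Lib.P162.H19

open Finset BigOperators

/-- One step. -/
theorem step_lump_comp (h k j : ℕ) [NeZero h] (φ : Fin j → Fin k) (x : Fin k → ZMod (2 * h))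
    (v : Fin j → ZMod (2 * h)) :
    ∑ u ∈ univ.filter (fun u : Fin k → ZMod (2 * h) => (fun i => u (φ i)) = v), Kmat h k x u
      = Kmat h j (fun i => x (φ i)) v := by
  show ∑ u ∈ univ.filter (fun u : Fin k → ZMod (2 * h) => (fun i => u (φ i)) = v),
      ((univ.filter fun c : ZMod h → Bool => ∀ i, move h c (x i) = u i).card : ℝ) / 2 ^ h
    = ((univ.filter fun c : ZMod h → Bool =>
        ∀ i, move h c (x (φ i)) = v i).card : ℝ) / 2 ^ h
  rw [← Finset.sum_div]
  congr 1
  rw [← Nat.cast_sum]
  congr 1
  rw [Finset.card_eq_sum_card_fiberwise (f := fun c : ZMod h → Bool => fun i => move h c (x i))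
    (t := univ.filter (fun u : Fin k → ZMod (2 * h) => (fun i => u (φ i)) = v))]
  · refine Finset.sum_congr rfl fun u hu => ?_
    congr 1
    ext c
    simp only [mem_filter, mem_univ, true_and] at hu ⊢
    constructor
    · intro hc
      refine ⟨fun i => ?_, funext hc⟩
      rw [hc (φ i)]
      exact congrFun hu i
    · rintro ⟨_, hc⟩ i
      rw [← hc]
  · intro c hc
    simp only [coe_filter, mem_univ, true_and, Set.mem_ofPred_eq] at hc ⊢
    funext i
    exact hc i

/-- **Lumping.** The cards picked by `φ` evolve as the `j`-card chain. -/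
theorem lump_comp (h k j : ℕ) [NeZero h] (φ : Fin j → Fin k) (s : ℕ)
    (x : Fin k → ZMod (2 * h)) (v : Fin j → ZMod (2 * h)) :
    ∑ y ∈ univ.filter (fun y : Fin k → ZMod (2 * h) => (fun i => y (φ i)) = v),
        (Kmat h k ^ s) x y
      = (Kmat h j ^ s) (fun i => x (φ i)) v := by
  induction s generalizing x with
  | zero =>
    rw [pow_zero, pow_zero, Matrix.one_apply,
      Finset.sum_congr rfl (fun y _ => Matrix.one_apply (i := x) (j := y)), Finset.sum_ite_eq]
    simp only [mem_filter, mem_univ, true_and]
  | succ s ih =>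
    rw [pow_succ', pow_succ', Matrix.mul_apply,
      Finset.sum_congr rfl (fun y _ => Matrix.mul_apply (M := Kmat h k) (N := Kmat h k ^ s)
        (i := x) (k := y))]
    rw [Finset.sum_comm]
    have h1 : ∀ u : Fin k → ZMod (2 * h),
        ∑ y ∈ univ.filter (fun y : Fin k → ZMod (2 * h) => (fun i => y (φ i)) = v),
          Kmat h k x u * (Kmat h k ^ s) u y
        = Kmat h k x u * (Kmat h j ^ s) (fun i => u (φ i)) v := by
      intro u
      rw [← Finset.mul_sum, ih u]
    rw [Finset.sum_congr rfl fun u _ => h1 u]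
    rw [← Finset.sum_fiberwise (s := univ)
      (g := fun u : Fin k → ZMod (2 * h) => (fun i => u (φ i)))
      (f := fun u => Kmat h k x u * (Kmat h j ^ s) (fun i => u (φ i)) v)]
    refine Finset.sum_congr rfl fun w _ => ?_
    rw [← step_lump_comp h k j φ x w, Finset.sum_mul]
    refine Finset.sum_congr rfl fun u hu => ?_
    simp only [mem_filter, mem_univ, true_and] at hu
    rw [hu]

/-- **Lumping of the old cards**: forgetting the card `0`. -/
theorem lump_tail (h j : ℕ) [NeZero h] (s : ℕ) (z : Fin (j + 1) → ZMod (2 * h))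
    (v : Fin j → ZMod (2 * h)) :
    ∑ y ∈ univ.filter (fun y : Fin (j + 1) → ZMod (2 * h) => (fun i => y i.succ) = v),
        (Kmat h (j + 1) ^ s) z y
      = (Kmat h j ^ s) (fun i => z i.succ) v :=
  lump_comp h (j + 1) j Fin.succ s z v

end Vale.Agent.Lib.P162.H19
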