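import Mathlib
import Vale.Agent.Lib.P162.Defs
import Vale.Agent.Lib.P162.RDefs
import Vale.Agent.Lib.P162.helper23.ProdTv
import Vale.Agent.Lib.P162.helper19.ConsFree
import Vale.Agent.Lib.P162.helper19.LumpComp
import Vale.Agent.Lib.P162.helper19.Comm

/-!
# P162, Theorem R: the pool jobs R1 (`lump_tail`), R2 (`comm_new`), R3 (`step_new_free`)
in the exact forms of the job texts, from `lump_comp`, `comm_pow`, `stepProb_cons_free`.
-/

namespace Vale.Agent.Lib.P162.H19

open Finset BigOperators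

/-- **Job R3.** -/
theorem step_new_free (h j : ℕ) [NeZero h] (z y : Fin (j + 1) → ZMod (2 * h))
    (hz : ¬ newBad h j z) :
    stepProb h (j + 1) z y = Wmat h (z 0) (y 0) * stepProb h j (Fin.tail z) (Fin.tail y) :=
  stepProb_cons_free h j z y (fun i e => hz ((newBad_iff h j z).mpr ⟨i, e.symm⟩))

/-- **Job R1.** -/
theorem lump_tail_cons (h j : ℕ) [NeZero h] (s : ℕ) (z : Fin (j + 1) → ZMod (2 * h))
    (v : Fin j → ZMod (2 * h)) :
    ∑ q : ZMod (2 * h), (Kmat h (j + 1) ^ s) z (Fin.cons q v : Fin (j + 1) → ZMod (2 * h))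
      = (Kmat h j ^ s) (Fin.tail z) v := by
  have h1 : ∑ y ∈ univ.filter (fun y : Fin (j + 1) → ZMod (2 * h) => (fun i => y i.succ) = v),
        (Kmat h (j + 1) ^ s) z y = (Kmat h j ^ s) (Fin.tail z) v := lump_tail h j s z v
  rw [Finset.sum_filter, H23.sum_fin_succ_fun] at h1
  rw [← h1]
  apply Finset.sum_congr rfl
  intro q _
  have h2 : ∀ v' : Fin j → ZMod (2 * h),
      (if (fun i : Fin j => (Fin.cons q v' : Fin (j + 1) → ZMod (2 * h)) i.succ) = v
        then (Kmat h (j + 1) ^ s) z (Fin.cons q v' : Fin (j + 1) → ZMod (2 * h)) else 0)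
      = if v = v' then (Kmat h (j + 1) ^ s) z (Fin.cons q v : Fin (j + 1) → ZMod (2 * h))
          else 0 := by
    intro v'
    have e : (fun i : Fin j => (Fin.cons q v' : Fin (j + 1) → ZMod (2 * h)) i.succ) = v' := by
      funext i
      simp only [Fin.cons_succ]
    rw [e]
    by_cases hv : v = v'
    · subst hv
      rfl
    · rw [if_neg hv, if_neg (fun e' => hv e'.symm)]
  rw [Finset.sum_congr rfl (fun v' _ => h2 v'), Finset.sum_ite_eq, if_pos (Finset.mem_univ _)]

/-- **Job R2.** -/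
theorem comm_new (h j : ℕ) [NeZero h] (s : ℕ) (w : Fin j → ZMod (2 * h))
    (y : Fin (j + 1) → ZMod (2 * h)) :
    ∑ p ∈ univ.filter (fun p : ZMod (2 * h) => ∀ i, p ≠ w i),
        (Kmat h (j + 1) ^ s) (Fin.cons p w : Fin (j + 1) → ZMod (2 * h)) y
      = if ∀ i : Fin j, y 0 ≠ y i.succ then (Kmat h j ^ s) w (Fin.tail y) else 0 := by
  have h1 := comm_pow h j s w (Fin.tail y) (y 0)
  rw [Fin.cons_self_tail] at h1
  have hf : (univ.filter (fun p : ZMod (2 * h) => ∀ i, p ≠ w i))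
      = univ.filter (fun p : ZMod (2 * h) => ∀ i, w i ≠ p) := by
    apply Finset.filter_congr
    intro p _
    exact forall_congr' (fun i => ne_comm)
  have hc : (∀ i : Fin j, y 0 ≠ y i.succ) ↔ (∀ i : Fin j, Fin.tail y i ≠ y 0) :=
    forall_congr' (fun i => ne_comm)
  rw [hf, h1]
  by_cases hq : ∀ i : Fin j, y 0 ≠ y i.succ
  · rw [if_pos hq, if_pos (hc.mp hq)]
  · rw [if_neg hq, if_neg (fun e => hq (hc.mpr e))]

end Vale.Agent.Lib.P162.H19
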