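import Mathlib

/-!
# P162 (Thorp shuffle), job A: comparison of two chains that agree off a bad set
-/

namespace Vale.Agent.Lib.P162.H19

open Finset BigOperators

theorem vecMul_pow_nonneg {S : Type*} [Fintype S] [DecidableEq S] (A : Matrix S S ℝ)
    (hA : ∀ z y, 0 ≤ A z y) (μ : S → ℝ) (hμ : ∀ z, 0 ≤ μ z) (i : ℕ) (y : S) :
    0 ≤ Matrix.vecMul μ (A ^ i) y := by
  induction i generalizing y with
  | zero => simpa using hμ y
  | succ i ih =>
    rw [pow_succ, ← Matrix.vecMul_vecMul]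
    exact Finset.sum_nonneg fun z _ => mul_nonneg (ih z) (hA z y)

/-- One step: the `l_1` distance grows by at most twice the mass on the bad set. -/
theorem step_compare {S : Type*} [Fintype S] [DecidableEq S] (A B : Matrix S S ℝ)
    (hA : ∀ z y, 0 ≤ A z y) (hA1 : ∀ z, ∑ y, A z y = 1)
    (hB : ∀ z y, 0 ≤ B z y) (hB1 : ∀ z, ∑ y, B z y = 1)
    (bd : S → Prop) [DecidablePred bd] (hAB : ∀ z, ¬ bd z → A z = B z)
    (u v : S → ℝ) (hu : ∀ z, 0 ≤ u z) :
    ∑ y, |Matrix.vecMul u A y - Matrix.vecMul v B y|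
      ≤ ∑ y, |u y - v y| + 2 * ∑ z ∈ univ.filter bd, u z := by
  have hpt : ∀ y, |Matrix.vecMul u A y - Matrix.vecMul v B y|
      ≤ ∑ z, (u z * |A z y - B z y| + |u z - v z| * B z y) := by
    intro y
    have e : Matrix.vecMul u A y - Matrix.vecMul v B y
        = ∑ z, (u z * (A z y - B z y) + (u z - v z) * B z y) := by
      simp only [Matrix.vecMul, dotProduct]
      rw [← Finset.sum_sub_distrib]
      refine Finset.sum_congr rfl fun z _ => ?_
      ring
    rw [e]
    refine (Finset.abs_sum_le_sum_abs _ _).trans (Finset.sum_le_sum fun z _ => ?_)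
    refine (abs_add_le _ _).trans ?_
    rw [abs_mul, abs_mul, abs_of_nonneg (hu z), abs_of_nonneg (hB z y)]
  have hd : ∀ z, u z * ∑ y, |A z y - B z y| ≤ if bd z then 2 * u z else 0 := by
    intro z
    split_ifs with hz
    · have h2 : ∑ y, |A z y - B z y| ≤ 2 := by
        calc ∑ y, |A z y - B z y| ≤ ∑ y, (A z y + B z y) :=
              Finset.sum_le_sum fun y _ => by
                rw [abs_le]
                constructor <;> linarith [hA z y, hB z y]
          _ = 2 := by
              rw [Finset.sum_add_distrib, hA1 z, hB1 z]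
              norm_num
      nlinarith [hu z]
    · rw [hAB z hz]
      simp
  calc ∑ y, |Matrix.vecMul u A y - Matrix.vecMul v B y|
      ≤ ∑ y, ∑ z, (u z * |A z y - B z y| + |u z - v z| * B z y) :=
        Finset.sum_le_sum fun y _ => hpt y
    _ = ∑ z, ∑ y, (u z * |A z y - B z y| + |u z - v z| * B z y) := Finset.sum_comm
    _ = ∑ z, (u z * ∑ y, |A z y - B z y| + |u z - v z|) := by
        refine Finset.sum_congr rfl fun z _ => ?_
        rw [Finset.sum_add_distrib, ← Finset.mul_sum, ← Finset.mul_sum, hB1 z, mul_one]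
    _ = ∑ z, u z * ∑ y, |A z y - B z y| + ∑ z, |u z - v z| := Finset.sum_add_distrib
    _ ≤ ∑ z, (if bd z then 2 * u z else 0) + ∑ z, |u z - v z| :=
        add_le_add (Finset.sum_le_sum fun z _ => hd z) le_rfl
    _ = ∑ y, |u y - v y| + 2 * ∑ z ∈ univ.filter bd, u z := by
        rw [Finset.mul_sum, Finset.sum_filter, add_comm]

/-- Job A, exact skeleton statement. -/
theorem tv_compare {S : Type*} [Fintype S] [DecidableEq S] (A B : Matrix S S ℝ)
    (hA : ∀ z y, 0 ≤ A z y) (hA1 : ∀ z, ∑ y, A z y = 1)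
    (hB : ∀ z y, 0 ≤ B z y) (hB1 : ∀ z, ∑ y, B z y = 1)
    (bd : S → Prop) [DecidablePred bd] (hAB : ∀ z, ¬ bd z → A z = B z)
    (μ : S → ℝ) (hμ : ∀ z, 0 ≤ μ z) (m : ℕ) :
    ∑ y, |(Matrix.vecMul μ (A ^ m)) y - (Matrix.vecMul μ (B ^ m)) y|
      ≤ 2 * ∑ i ∈ range m, ∑ z ∈ univ.filter bd, (Matrix.vecMul μ (A ^ i)) z := by
  induction m with
  | zero => simp
  | succ m ih =>
    rw [pow_succ, pow_succ, ← Matrix.vecMul_vecMul, ← Matrix.vecMul_vecMul,
      Finset.sum_range_succ, mul_add]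
    refine (step_compare A B hA hA1 hB hB1 bd hAB _ _
      (fun z => vecMul_pow_nonneg A hA μ hμ m z)).trans ?_
    linarith

end Vale.Agent.Lib.P162.H19
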