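import Mathlib
import Vale.Agent.Lib.P162.Defs
import Vale.Agent.Lib.P162.RDefs
import Vale.Agent.Lib.P162.helper23.ProdTv
import Vale.Agent.Lib.P162.helper36.MoveInj
import Vale.Agent.Lib.P162.helper95.KmatBasic
import Vale.Agent.Lib.P162.helper19.TvCompare
import Vale.Agent.Lib.P162.helper19.RJobs

/-!
# P162, Theorem R: the one-block bound

`block_defect_of`: from every injective start, after `3 L` shuffles (`L = ⌈log₂ (2 h)⌉`) the law
of the `j + 1` cards is within `l1` distance `(16 L j + 1 + 2 j) / (2 h)` of its resampled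
version (new card uniform off the old cards). The pool jobs R4 (`Bmat_pow`, `Bmat_nonneg`,
`Bmat_sum`), R5 (`new_bad_prob`), R6 (`off_occ_tv`) and the one-card estimate `Wmat_pow_close`
enter as hypotheses in their job forms.
-/

namespace Vale.Agent.Lib.P162.H19

open Finset BigOperators

theorem block_aux1 (N P : ℝ) (hN : 0 < N) (hP : N ≤ P) : N / P ^ 2 ≤ 1 / N := by
  have hP0 : 0 < P := lt_of_lt_of_le hN hP
  rw [div_le_div_iff₀ (by positivity) hN]
  nlinarith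

theorem block_aux2 (N Q L j : ℝ) (hN : 0 < N) (hQ : 0 < Q) (hNQ : N ≤ 4 * Q) (hL : 0 ≤ L)
    (hj : 0 ≤ j) : 2 * (2 * L * (j / Q)) ≤ 16 * L * j / N := by
  have e : 2 * (2 * L * (j / Q)) = 4 * L * j / Q := by ring
  rw [e, div_le_div_iff₀ hQ hN]
  nlinarith [mul_nonneg hL hj, mul_nonneg (mul_nonneg hL hj) (sub_nonneg.mpr hNQ)]

/-- the numerics of one block -/
theorem block_num (h L m0 j : ℕ) (hhpos : 0 < h) (hLn : 2 * h ≤ 2 ^ L)
    (hm0lt : h < 2 ^ (m0 + 1)) :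
    2 * (((2 * L : ℕ) : ℝ) * ((j : ℝ) / 2 ^ m0))
        + ((2 * h : ℝ) / 2 ^ (2 * L) + 2 * (j : ℝ) / (2 * h : ℝ))
      ≤ (16 * (L : ℝ) * j + 1 + 2 * j) / (2 * h : ℝ) := by
  have hh : (0 : ℝ) < h := by exact_mod_cast hhpos
  have hN : (0 : ℝ) < 2 * (h : ℝ) := by positivity
  have hQ : (0 : ℝ) < 2 ^ m0 := by positivity
  have hNQ : 2 * (h : ℝ) ≤ 4 * 2 ^ m0 := by
    have h1 : (h : ℝ) < 2 ^ (m0 + 1) := by exact_mod_cast hm0lt
    rw [pow_succ] at h1
    linarith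
  have hNP : 2 * (h : ℝ) ≤ 2 ^ L := by exact_mod_cast hLn
  have B1 : 2 * (((2 * L : ℕ) : ℝ) * ((j : ℝ) / 2 ^ m0)) ≤ 16 * (L : ℝ) * j / (2 * (h : ℝ)) := by
    push_cast
    exact block_aux2 (2 * (h : ℝ)) (2 ^ m0) L j hN hQ hNQ (Nat.cast_nonneg L) (Nat.cast_nonneg j)
  have B2 : 2 * (h : ℝ) / 2 ^ (2 * L) ≤ 1 / (2 * (h : ℝ)) := by
    rw [pow_mul']
    exact block_aux1 (2 * (h : ℝ)) (2 ^ L) hN hNP
  have e : (16 * (L : ℝ) * j + 1 + 2 * j) / (2 * (h : ℝ))
      = 16 * (L : ℝ) * j / (2 * (h : ℝ)) + (1 / (2 * (h : ℝ)) + 2 * (j : ℝ) / (2 * (h : ℝ))) := by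
    ring
  rw [e]
  linarith

/-- the indicator of a free position, in the two forms used below -/
theorem free_ind (h j : ℕ) (c : ℝ) (q : ZMod (2 * h)) (v : Fin j → ZMod (2 * h)) :
    (if ∀ i : Fin j, (Fin.cons q v : Fin (j + 1) → ZMod (2 * h)) 0
        ≠ (Fin.cons q v : Fin (j + 1) → ZMod (2 * h)) i.succ then c else 0)
      = if ∀ i, q ≠ v i then c else 0 := by
  have hiff : (∀ i : Fin j, (Fin.cons q v : Fin (j + 1) → ZMod (2 * h)) 0
        ≠ (Fin.cons q v : Fin (j + 1) → ZMod (2 * h)) i.succ) ↔ (∀ i, q ≠ v i) := by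
    simp only [Fin.cons_zero, Fin.cons_succ]
  by_cases hc : ∀ i, q ≠ v i
  · rw [if_pos hc, if_pos (hiff.mpr hc)]
  · rw [if_neg hc, if_neg (fun e => hc (hiff.mp e))]

/-- the law of the old cards at time `a + b`, through the `(j + 1)`-card chain at time `a` -/
theorem pow_add_tail (h j : ℕ) [NeZero h] (a b : ℕ) (u : Fin (j + 1) → ZMod (2 * h))
    (v : Fin j → ZMod (2 * h)) :
    (Kmat h j ^ (a + b)) (Fin.tail u) v
      = ∑ z, (Kmat h (j + 1) ^ a) u z * (Kmat h j ^ b) (Fin.tail z) v := by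
  rw [pow_add, Matrix.mul_apply, H23.sum_fin_succ_fun, Finset.sum_comm]
  apply Finset.sum_congr rfl
  intro w _
  rw [← lump_tail_cons h j a u w, Finset.sum_mul]
  apply Finset.sum_congr rfl
  intro q _
  rw [Fin.tail_cons]

/-- the resampled law as a product -/
theorem resamp_eq (h j : ℕ) [NeZero h] (t : ℕ) (z y : Fin (j + 1) → ZMod (2 * h)) :
    resamp h j t z y
      = (if ∀ i : Fin j, y 0 ≠ y i.succ then 1 / ((2 * h : ℝ) - j) else 0)
          * (Kmat h j ^ t) (Fin.tail z) (Fin.tail y) := by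
  rw [resamp_apply]
  by_cases hc : ∀ i : Fin j, y 0 ≠ y i.succ
  · rw [if_pos hc, if_pos hc, div_eq_mul_one_div, mul_comm]
  · rw [if_neg hc, if_neg hc, zero_mul]

/-- **The free part of a block.** -/
theorem block_free (h j : ℕ) [NeZero h]
    (hBpow : ∀ (m : ℕ) (z y : Fin (j + 1) → ZMod (2 * h)),
      (Bmat h j ^ m) z y = (Wmat h ^ m) (z 0) (y 0) * (Kmat h j ^ m) (Fin.tail z) (Fin.tail y))
    (hocc : ∀ (v : Fin j → ZMod (2 * h)), Function.Injective v → j < 2 * h →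
      ∑ q : ZMod (2 * h),
          |1 / (2 * h : ℝ) - (if ∀ i, q ≠ v i then 1 / ((2 * h : ℝ) - j) else 0)|
        = 2 * (j : ℝ) / (2 * h : ℝ))
    (hclose : ∀ (m : ℕ) (p y : ZMod (2 * h)),
      |(Wmat h ^ m) p y - 1 / (2 * h : ℝ)| ≤ 1 / 2 ^ m)
    (μ : (Fin (j + 1) → ZMod (2 * h)) → ℝ) (hμ : ∀ z, 0 ≤ μ z) (hμ1 : ∑ z, μ z = 1)
    (hμs : ∀ z, μ z ≠ 0 → Function.Injective z) (m : ℕ) :
    ∑ y : Fin (j + 1) → ZMod (2 * h),
      |Matrix.vecMul μ (Bmat h j ^ m) y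
        - (if ∀ i : Fin j, y 0 ≠ y i.succ then 1 / ((2 * h : ℝ) - j) else 0)
            * ∑ z, μ z * (Kmat h j ^ m) (Fin.tail z) (Fin.tail y)|
      ≤ (2 * h : ℝ) / 2 ^ m + 2 * (j : ℝ) / (2 * h : ℝ) := by
  have hKnn : ∀ (w v : Fin j → ZMod (2 * h)), 0 ≤ (Kmat h j ^ m) w v :=
    fun w v => H95.Kmat_pow_nonneg h j m w v
  -- pointwise identity
  have h1 : ∀ y : Fin (j + 1) → ZMod (2 * h),
      Matrix.vecMul μ (Bmat h j ^ m) y
        - (if ∀ i : Fin j, y 0 ≠ y i.succ then 1 / ((2 * h : ℝ) - j) else 0)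
            * ∑ z, μ z * (Kmat h j ^ m) (Fin.tail z) (Fin.tail y)
      = ∑ z, μ z * ((Kmat h j ^ m) (Fin.tail z) (Fin.tail y)
          * ((Wmat h ^ m) (z 0) (y 0)
            - (if ∀ i : Fin j, y 0 ≠ y i.succ then 1 / ((2 * h : ℝ) - j) else 0))) := by
    intro y
    have e1 : Matrix.vecMul μ (Bmat h j ^ m) y
        = ∑ z, μ z * ((Wmat h ^ m) (z 0) (y 0) * (Kmat h j ^ m) (Fin.tail z) (Fin.tail y)) := by
      show ∑ z, μ z * (Bmat h j ^ m) z y = _
      exact Finset.sum_congr rfl (fun z _ => by rw [hBpow m z y])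
    rw [e1, Finset.mul_sum, ← Finset.sum_sub_distrib]
    apply Finset.sum_congr rfl
    intro z _
    ring
  -- absolute values
  have h2 : ∀ y : Fin (j + 1) → ZMod (2 * h),
      |Matrix.vecMul μ (Bmat h j ^ m) y
        - (if ∀ i : Fin j, y 0 ≠ y i.succ then 1 / ((2 * h : ℝ) - j) else 0)
            * ∑ z, μ z * (Kmat h j ^ m) (Fin.tail z) (Fin.tail y)|
      ≤ ∑ z, μ z * ((Kmat h j ^ m) (Fin.tail z) (Fin.tail y)
          * |(Wmat h ^ m) (z 0) (y 0)
            - (if ∀ i : Fin j, y 0 ≠ y i.succ then 1 / ((2 * h : ℝ) - j) else 0)|) := by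
    intro y
    rw [h1 y]
    refine le_trans (Finset.abs_sum_le_sum_abs _ _) (le_of_eq ?_)
    apply Finset.sum_congr rfl
    intro z _
    rw [abs_mul, abs_mul, abs_of_nonneg (hμ z), abs_of_nonneg (hKnn _ _)]
  -- the row bound
  have hrow : ∀ z : Fin (j + 1) → ZMod (2 * h),
      μ z * ∑ y : Fin (j + 1) → ZMod (2 * h), ((Kmat h j ^ m) (Fin.tail z) (Fin.tail y)
          * |(Wmat h ^ m) (z 0) (y 0)
            - (if ∀ i : Fin j, y 0 ≠ y i.succ then 1 / ((2 * h : ℝ) - j) else 0)|)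
      ≤ μ z * ((2 * h : ℝ) / 2 ^ m + 2 * (j : ℝ) / (2 * h : ℝ)) := by
    intro z
    by_cases hz0 : μ z = 0
    · rw [hz0, zero_mul, zero_mul]
    · apply mul_le_mul_of_nonneg_left _ (hμ z)
      have hzinj : Function.Injective z := hμs z hz0
      have htinj : Function.Injective (Fin.tail z) :=
        fun a b e => Fin.succ_injective _ (hzinj e)
      have hjn : j < 2 * h := by
        have := Fintype.card_le_of_injective z hzinj
        rw [Fintype.card_fin, ZMod.card] at this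
        exact Nat.lt_of_succ_le this
      rw [H23.sum_fin_succ_fun, Finset.sum_comm]
      have hv : ∀ v : Fin j → ZMod (2 * h),
          ∑ q : ZMod (2 * h), ((Kmat h j ^ m) (Fin.tail z)
              (Fin.tail (Fin.cons q v : Fin (j + 1) → ZMod (2 * h)))
            * |(Wmat h ^ m) (z 0) ((Fin.cons q v : Fin (j + 1) → ZMod (2 * h)) 0)
              - (if ∀ i : Fin j, (Fin.cons q v : Fin (j + 1) → ZMod (2 * h)) 0
                  ≠ (Fin.cons q v : Fin (j + 1) → ZMod (2 * h)) i.succ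
                then 1 / ((2 * h : ℝ) - j) else 0)|)
          ≤ (Kmat h j ^ m) (Fin.tail z) v
              * ((2 * h : ℝ) / 2 ^ m + 2 * (j : ℝ) / (2 * h : ℝ)) := by
        intro v
        have e : ∀ q : ZMod (2 * h), ((Kmat h j ^ m) (Fin.tail z)
              (Fin.tail (Fin.cons q v : Fin (j + 1) → ZMod (2 * h)))
            * |(Wmat h ^ m) (z 0) ((Fin.cons q v : Fin (j + 1) → ZMod (2 * h)) 0)
              - (if ∀ i : Fin j, (Fin.cons q v : Fin (j + 1) → ZMod (2 * h)) 0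
                  ≠ (Fin.cons q v : Fin (j + 1) → ZMod (2 * h)) i.succ
                then 1 / ((2 * h : ℝ) - j) else 0)|)
            = (Kmat h j ^ m) (Fin.tail z) v
              * |(Wmat h ^ m) (z 0) q
                - (if ∀ i, q ≠ v i then 1 / ((2 * h : ℝ) - j) else 0)| := by
          intro q
          rw [free_ind h j (1 / ((2 * h : ℝ) - j)) q v, Fin.tail_cons, Fin.cons_zero]
        rw [Finset.sum_congr rfl (fun q _ => e q), ← Finset.mul_sum]
        by_cases hk0 : (Kmat h j ^ m) (Fin.tail z) v = 0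
        · rw [hk0, zero_mul, zero_mul]
        · apply mul_le_mul_of_nonneg_left _ (hKnn _ _)
          have hvinj : Function.Injective v :=
            H95.Kmat_pow_support h j (H36.move_injective h) (Fin.tail z) htinj m v hk0
          have hsplit : ∀ q : ZMod (2 * h),
              |(Wmat h ^ m) (z 0) q - (if ∀ i, q ≠ v i then 1 / ((2 * h : ℝ) - j) else 0)|
              ≤ 1 / 2 ^ m
                + |1 / (2 * h : ℝ) - (if ∀ i, q ≠ v i then 1 / ((2 * h : ℝ) - j) else 0)| := by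
            intro q
            have e2 : (Wmat h ^ m) (z 0) q
                  - (if ∀ i, q ≠ v i then 1 / ((2 * h : ℝ) - j) else 0)
                = ((Wmat h ^ m) (z 0) q - 1 / (2 * h : ℝ))
                  + (1 / (2 * h : ℝ)
                    - (if ∀ i, q ≠ v i then 1 / ((2 * h : ℝ) - j) else 0)) := by ring
            rw [e2]
            exact le_trans (abs_add_le _ _) (add_le_add_left (hclose m (z 0) q) _)
          refine le_trans (Finset.sum_le_sum (fun q _ => hsplit q)) ?_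
          rw [Finset.sum_add_distrib, hocc v hvinj hjn, Finset.sum_const, Finset.card_univ,
            ZMod.card, nsmul_eq_mul]
          apply le_of_eq
          push_cast
          ring
      refine le_trans (Finset.sum_le_sum (fun v _ => hv v)) ?_
      rw [← Finset.sum_mul, H95.Kmat_pow_sum h j m (Fin.tail z), one_mul]
  calc ∑ y : Fin (j + 1) → ZMod (2 * h),
      |Matrix.vecMul μ (Bmat h j ^ m) y
        - (if ∀ i : Fin j, y 0 ≠ y i.succ then 1 / ((2 * h : ℝ) - j) else 0)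
            * ∑ z, μ z * (Kmat h j ^ m) (Fin.tail z) (Fin.tail y)|
      ≤ ∑ y : Fin (j + 1) → ZMod (2 * h), ∑ z, μ z * ((Kmat h j ^ m) (Fin.tail z) (Fin.tail y)
          * |(Wmat h ^ m) (z 0) (y 0)
            - (if ∀ i : Fin j, y 0 ≠ y i.succ then 1 / ((2 * h : ℝ) - j) else 0)|) :=
        Finset.sum_le_sum (fun y _ => h2 y)
    _ = ∑ z, μ z * ∑ y : Fin (j + 1) → ZMod (2 * h), ((Kmat h j ^ m) (Fin.tail z) (Fin.tail y)
          * |(Wmat h ^ m) (z 0) (y 0)
            - (if ∀ i : Fin j, y 0 ≠ y i.succ then 1 / ((2 * h : ℝ) - j) else 0)|) := by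
        rw [Finset.sum_comm]
        exact Finset.sum_congr rfl (fun z _ => (Finset.mul_sum _ _ _).symm)
    _ ≤ ∑ z, μ z * ((2 * h : ℝ) / 2 ^ m + 2 * (j : ℝ) / (2 * h : ℝ)) :=
        Finset.sum_le_sum (fun z _ => hrow z)
    _ = (2 * h : ℝ) / 2 ^ m + 2 * (j : ℝ) / (2 * h : ℝ) := by
        rw [← Finset.sum_mul, hμ1, one_mul]

/-- **One block**, from the pool jobs R4, R5, R6 and `Wmat_pow_close` as hypotheses. -/
theorem block_defect_of (h j : ℕ) [NeZero h] [DecidablePred (newBad h j)]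
    (hBpow : ∀ (m : ℕ) (z y : Fin (j + 1) → ZMod (2 * h)),
      (Bmat h j ^ m) z y = (Wmat h ^ m) (z 0) (y 0) * (Kmat h j ^ m) (Fin.tail z) (Fin.tail y))
    (hBnn : ∀ z y : Fin (j + 1) → ZMod (2 * h), 0 ≤ Bmat h j z y)
    (hBsum : ∀ z : Fin (j + 1) → ZMod (2 * h), ∑ y, Bmat h j z y = 1)
    (hbad : ∀ (x : Fin (j + 1) → ZMod (2 * h)), Function.Injective x → ∀ (m s : ℕ),
      2 ^ m ≤ h → m ≤ s →
      ∑ z ∈ univ.filter (newBad h j), (Kmat h (j + 1) ^ s) x z ≤ (j : ℝ) / 2 ^ m)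
    (hocc : ∀ (v : Fin j → ZMod (2 * h)), Function.Injective v → j < 2 * h →
      ∑ q : ZMod (2 * h),
          |1 / (2 * h : ℝ) - (if ∀ i, q ≠ v i then 1 / ((2 * h : ℝ) - j) else 0)|
        = 2 * (j : ℝ) / (2 * h : ℝ))
    (hclose : ∀ (m : ℕ) (p y : ZMod (2 * h)),
      |(Wmat h ^ m) p y - 1 / (2 * h : ℝ)| ≤ 1 / 2 ^ m)
    (u : Fin (j + 1) → ZMod (2 * h)) (hu : Function.Injective u) :
    defect h j (3 * Nat.clog 2 (2 * h)) u
      ≤ (16 * (Nat.clog 2 (2 * h) : ℝ) * j + 1 + 2 * j) / (2 * h : ℝ) := by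
  have hhpos : 0 < h := Nat.pos_of_ne_zero (NeZero.ne h)
  have hLn : 2 * h ≤ 2 ^ Nat.clog 2 (2 * h) := Nat.le_pow_clog (by norm_num) (2 * h)
  have hm0le : 2 ^ Nat.log 2 h ≤ h := Nat.pow_log_le_self 2 (by omega)
  have hm0lt : h < 2 ^ (Nat.log 2 h + 1) := Nat.lt_pow_succ_log_self (by norm_num) h
  have hm0L : Nat.log 2 h ≤ Nat.clog 2 (2 * h) := by
    have h1 : 2 ^ Nat.log 2 h ≤ 2 ^ Nat.clog 2 (2 * h) :=
      le_trans hm0le (le_trans (by omega) hLn)
    exact (Nat.pow_le_pow_iff_right (by norm_num)).mp h1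
  generalize Nat.clog 2 (2 * h) = L at hLn hm0L ⊢
  generalize Nat.log 2 h = m0 at hm0le hm0lt hm0L
  -- the law after `L` shuffles
  have hμ : ∀ z, 0 ≤ (Kmat h (j + 1) ^ L) u z := fun z => H95.Kmat_pow_nonneg h (j + 1) L u z
  have hμ1 : ∑ z, (Kmat h (j + 1) ^ L) u z = 1 := H95.Kmat_pow_sum h (j + 1) L u
  have hμs : ∀ z, (Kmat h (j + 1) ^ L) u z ≠ 0 → Function.Injective z :=
    fun z hz => H95.Kmat_pow_support h (j + 1) (H36.move_injective h) u hu L z hz
  have hvec : ∀ (i : ℕ) (y : Fin (j + 1) → ZMod (2 * h)),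
      Matrix.vecMul (fun z => (Kmat h (j + 1) ^ L) u z) (Kmat h (j + 1) ^ i) y
        = (Kmat h (j + 1) ^ (L + i)) u y := by
    intro i y
    rw [pow_add, Matrix.mul_apply]
    rfl
  have hK0 : ∀ z y, 0 ≤ Kmat h (j + 1) z y := fun z y => H95.stepProb_nonneg h (j + 1) z y
  have hK1 : ∀ z, ∑ y, Kmat h (j + 1) z y = 1 := fun z => H95.stepProb_sum h (j + 1) z
  have hAB : ∀ z, ¬ newBad h j z → Kmat h (j + 1) z = Bmat h j z := by
    intro z hz
    funext y
    exact step_new_free h j z y hz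
  have T1 := tv_compare (Kmat h (j + 1)) (Bmat h j) hK0 hK1 hBnn hBsum (newBad h j) hAB
    (fun z => (Kmat h (j + 1) ^ L) u z) hμ (2 * L)
  have hb : ∀ i ∈ range (2 * L),
      ∑ z ∈ univ.filter (newBad h j),
        Matrix.vecMul (fun z => (Kmat h (j + 1) ^ L) u z) (Kmat h (j + 1) ^ i) z
        ≤ (j : ℝ) / 2 ^ m0 := by
    intro i _
    rw [Finset.sum_congr rfl (fun z _ => hvec i z)]
    exact hbad u hu m0 (L + i) hm0le (le_trans hm0L (Nat.le_add_right L i))
  have T1' : ∑ y, |Matrix.vecMul (fun z => (Kmat h (j + 1) ^ L) u z)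
          (Kmat h (j + 1) ^ (2 * L)) y
        - Matrix.vecMul (fun z => (Kmat h (j + 1) ^ L) u z) (Bmat h j ^ (2 * L)) y|
      ≤ 2 * ((2 * L : ℕ) * ((j : ℝ) / 2 ^ m0)) := by
    refine le_trans T1 ?_
    apply mul_le_mul_of_nonneg_left _ (by norm_num)
    refine le_trans (Finset.sum_le_sum hb) ?_
    rw [Finset.sum_const, Finset.card_range, nsmul_eq_mul]
  have T2 := block_free h j hBpow hocc hclose (fun z => (Kmat h (j + 1) ^ L) u z) hμ hμ1 hμs
    (2 * L)
  have e3 : 3 * L = L + 2 * L := by ring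
  have hpt : ∀ y : Fin (j + 1) → ZMod (2 * h),
      |(Kmat h (j + 1) ^ (3 * L)) u y - resamp h j (3 * L) u y|
      ≤ |Matrix.vecMul (fun z => (Kmat h (j + 1) ^ L) u z) (Kmat h (j + 1) ^ (2 * L)) y
          - Matrix.vecMul (fun z => (Kmat h (j + 1) ^ L) u z) (Bmat h j ^ (2 * L)) y|
        + |Matrix.vecMul (fun z => (Kmat h (j + 1) ^ L) u z) (Bmat h j ^ (2 * L)) y
          - (if ∀ i : Fin j, y 0 ≠ y i.succ then 1 / ((2 * h : ℝ) - j) else 0)
            * ∑ z, (Kmat h (j + 1) ^ L) u z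
                * (Kmat h j ^ (2 * L)) (Fin.tail z) (Fin.tail y)| := by
    intro y
    rw [resamp_eq, e3, pow_add_tail h j L (2 * L) u (Fin.tail y), ← hvec (2 * L) y]
    exact abs_sub_le _ _ _
  rw [defect_apply]
  refine le_trans (Finset.sum_le_sum (fun y _ => hpt y)) ?_
  rw [Finset.sum_add_distrib]
  refine le_trans (add_le_add T1' T2) ?_
  exact block_num h L m0 j hhpos hLn hm0lt

end Vale.Agent.Lib.P162.H19
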