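import Mathlib
import Vale.Agent.Lib.P162.Defs

/-!
# P162 (Thorp shuffle), job H: two cards are rarely partners (assembly of the partner lemma)

`pair_partner_of` proves the skeleton statement `pair_partner` from the statements of the other
jobs (partner gap, free step, the free one-card chain, powers of a product kernel, support and
stochasticity of the powers of `Kmat`), taken as hypotheses in their skeleton form.
-/

namespace Vale.Agent.Lib.P162.H19

open Finset BigOperators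

theorem mat_pow_nonneg {S : Type*} [Fintype S] [DecidableEq S] (A : Matrix S S ℝ)
    (hA : ∀ z y, 0 ≤ A z y) (n : ℕ) (z y : S) : 0 ≤ (A ^ n) z y := by
  induction n generalizing y with
  | zero =>
    rw [pow_zero, Matrix.one_apply]
    split_ifs <;> norm_num
  | succ n ih =>
    rw [pow_succ, Matrix.mul_apply]
    exact Finset.sum_nonneg fun u _ => mul_nonneg (ih u) (hA u y)

theorem mat_pow_row_sum {S : Type*} [Fintype S] [DecidableEq S] (A : Matrix S S ℝ)
    (hA1 : ∀ z, ∑ y, A z y = 1) (n : ℕ) (z : S) : ∑ y, (A ^ n) z y = 1 := by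
  induction n with
  | zero => simp [Matrix.one_apply]
  | succ n ih =>
    simp only [pow_succ, Matrix.mul_apply]
    rw [Finset.sum_comm]
    simp only [← Finset.mul_sum, hA1, mul_one]
    exact ih

theorem Wmat_nonneg (h : ℕ) [NeZero h] (p q : ZMod (2 * h)) : 0 ≤ Wmat h p q := by
  unfold Wmat
  split_ifs <;> norm_num

theorem Wmat_row_sum (h : ℕ) [NeZero h] (p : ZMod (2 * h)) : ∑ q, Wmat h p q = 1 := by
  unfold Wmat
  rw [Finset.sum_add_distrib, Finset.sum_ite_eq', Finset.sum_ite_eq']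
  simp only [Finset.mem_univ, if_true]
  norm_num

theorem Wk_nonneg (h k : ℕ) [NeZero h] (z y : Fin k → ZMod (2 * h)) : 0 ≤ Wk h k z y := by
  unfold Wk
  exact Finset.prod_nonneg fun j _ => Wmat_nonneg h _ _

theorem inj_two {α : Type*} (w : Fin 2 → α) : Function.Injective w ↔ w 0 ≠ w 1 := by
  constructor
  · intro hinj h01
    exact absurd (hinj h01) (by decide)
  · intro hne i j hij
    fin_cases i <;> fin_cases j
    · rfl
    · exact absurd hij hne
    · exact absurd hij.symm hne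
    · rfl

/-- The set of partner states of two cards. -/
def partners (h : ℕ) [NeZero h] : Finset (Fin 2 → ZMod (2 * h)) :=
  univ.filter (fun w : Fin 2 → ZMod (2 * h) => w 1 = w 0 + (h : ZMod (2 * h)))

theorem sum_partners_le (h : ℕ) [NeZero h] (g : ZMod (2 * h) → ℝ) (hg : ∀ a, 0 ≤ g a) :
    ∑ w ∈ partners h, g (w 0) ≤ ∑ a, g a := by
  have hinj : Set.InjOn (fun w : Fin 2 → ZMod (2 * h) => w 0) (partners h : Set _) := by
    intro w hw w' hw' h0
    have h1 : w 1 = w 0 + (h : ZMod (2 * h)) := (Finset.mem_filter.mp hw).2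
    have h1' : w' 1 = w' 0 + (h : ZMod (2 * h)) := (Finset.mem_filter.mp hw').2
    simp only at h0
    funext i
    fin_cases i
    · exact h0
    · show w 1 = w' 1
      rw [h1, h1', h0]
  rw [← Finset.sum_image (f := g) hinj]
  exact Finset.sum_le_sum_of_subset_of_nonneg (Finset.subset_univ _) (fun a _ _ => hg a)

/-- Step (iii): the free two-card chain is rarely at a partner state. -/
theorem free_partner (h : ℕ) [NeZero h]
    (hWle : ∀ (m : ℕ), 2 ^ m ≤ 2 * h → ∀ p y : ZMod (2 * h), (Wmat h ^ m) p y ≤ 1 / 2 ^ m)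
    (hprod : ∀ (m : ℕ) (z y : Fin 2 → ZMod (2 * h)),
      (Wk h 2 ^ m) z y = ∏ j, (Wmat h ^ m) (z j) (y j))
    (r : ℕ) (hr : 2 ^ r ≤ h) (u : Fin 2 → ZMod (2 * h)) :
    ∑ w ∈ partners h, (Wk h 2 ^ r) u w ≤ 1 / 2 ^ r := by
  have hr2 : 2 ^ r ≤ 2 * h := by omega
  have hterm : ∀ w : Fin 2 → ZMod (2 * h),
      (Wk h 2 ^ r) u w ≤ (Wmat h ^ r) (u 0) (w 0) * (1 / 2 ^ r) := by
    intro w
    have e : (Wk h 2 ^ r) u w = (Wmat h ^ r) (u 0) (w 0) * (Wmat h ^ r) (u 1) (w 1) := by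
      have := hprod r u w
      rw [Fin.prod_univ_two] at this
      exact this
    rw [e]
    exact mul_le_mul_of_nonneg_left (hWle r hr2 _ _)
      (mat_pow_nonneg (Wmat h) (Wmat_nonneg h) r _ _)
  calc ∑ w ∈ partners h, (Wk h 2 ^ r) u w
      ≤ ∑ w ∈ partners h, (Wmat h ^ r) (u 0) (w 0) * (1 / 2 ^ r) :=
        Finset.sum_le_sum fun w _ => hterm w
    _ = (∑ w ∈ partners h, (Wmat h ^ r) (u 0) (w 0)) * (1 / 2 ^ r) := by
        rw [Finset.sum_mul]
    _ ≤ (∑ a, (Wmat h ^ r) (u 0) a) * (1 / 2 ^ r) := by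
        apply mul_le_mul_of_nonneg_right
        · exact sum_partners_le h (fun a => (Wmat h ^ r) (u 0) a)
            (fun a => mat_pow_nonneg (Wmat h) (Wmat_nonneg h) r _ _)
        · positivity
    _ = 1 / 2 ^ r := by
        rw [mat_pow_row_sum (Wmat h) (Wmat_row_sum h) r, one_mul]

/-- Step (ii): off the diagonal, the two-card chain is at a partner state after `r` steps
(`2 ^ r ≤ h`) with at most the probability of the free chain. -/
theorem chain_le_free (h : ℕ) [NeZero h]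
    (hgap : ∀ (r : ℕ), 1 ≤ r → 2 ^ r ≤ h → ∀ (w v : Fin 2 → ZMod (2 * h)),
      w 1 = w 0 + (h : ZMod (2 * h)) → v 1 = v 0 + (h : ZMod (2 * h)) →
        (Kmat h 2 ^ r) w v = 0)
    (hfree : ∀ (z y : Fin 2 → ZMod (2 * h)), ¬ bad h 2 z → stepProb h 2 z y = Wk h 2 z y)
    (hcast : ∀ u v : ZMod (2 * h),
      (ZMod.cast u : ZMod h) = ZMod.cast v ↔ v = u ∨ v = u + (h : ZMod (2 * h)))
    (hsupp : ∀ (x : Fin 2 → ZMod (2 * h)), Function.Injective x → ∀ (s : ℕ)
      (y : Fin 2 → ZMod (2 * h)), (Kmat h 2 ^ s) x y ≠ 0 → Function.Injective y)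
    (r : ℕ) (hr : 2 ^ r ≤ h) (u : Fin 2 → ZMod (2 * h)) (hu : u 0 ≠ u 1) :
    ∑ w ∈ partners h, (Kmat h 2 ^ r) u w ≤ ∑ w ∈ partners h, (Wk h 2 ^ r) u w := by
  induction r generalizing u with
  | zero => simp
  | succ r ih =>
    have hr' : 2 ^ r ≤ h := le_trans (Nat.pow_le_pow_right (by norm_num) (Nat.le_succ r)) hr
    by_cases hp : u 1 = u 0 + (h : ZMod (2 * h))
    · have hz : ∑ w ∈ partners h, (Kmat h 2 ^ (r + 1)) u w = 0 := by
        apply Finset.sum_eq_zero
        intro w hw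
        exact hgap (r + 1) (by omega) hr u w hp (Finset.mem_filter.mp hw).2
      rw [hz]
      exact Finset.sum_nonneg fun w _ => mat_pow_nonneg (Wk h 2) (Wk_nonneg h 2) _ _ _
    · have hnb : ¬ bad h 2 u := by
        rintro ⟨j, j', hjj, hc⟩
        have key : u 1 = u 0 ∨ u 1 = u 0 + (h : ZMod (2 * h)) := by
          fin_cases j <;> fin_cases j'
          · exact absurd rfl hjj
          · exact (hcast (u 0) (u 1)).mp hc
          · exact (hcast (u 0) (u 1)).mp hc.symm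
          · exact absurd rfl hjj
        rcases key with h1 | h1
        · exact hu h1.symm
        · exact hp h1
      have hrow : ∀ v, Kmat h 2 u v = Wk h 2 u v := fun v => hfree u v hnb
      have hstep : ∀ v : Fin 2 → ZMod (2 * h),
          Kmat h 2 u v * ∑ w ∈ partners h, (Kmat h 2 ^ r) v w
            ≤ Wk h 2 u v * ∑ w ∈ partners h, (Wk h 2 ^ r) v w := by
        intro v
        rw [hrow v]
        by_cases hv0 : Wk h 2 u v = 0
        · rw [hv0, zero_mul, zero_mul]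
        · have hvinj : Function.Injective v := by
            apply hsupp u ((inj_two u).mpr hu) 1 v
            rw [pow_one, hrow v]
            exact hv0
          exact mul_le_mul_of_nonneg_left (ih hr' v ((inj_two v).mp hvinj)) (Wk_nonneg h 2 u v)
      calc ∑ w ∈ partners h, (Kmat h 2 ^ (r + 1)) u w
          = ∑ v, Kmat h 2 u v * ∑ w ∈ partners h, (Kmat h 2 ^ r) v w := by
            simp only [pow_succ', Matrix.mul_apply]
            rw [Finset.sum_comm]
            simp only [Finset.mul_sum]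
        _ ≤ ∑ v, Wk h 2 u v * ∑ w ∈ partners h, (Wk h 2 ^ r) v w :=
            Finset.sum_le_sum fun v _ => hstep v
        _ = ∑ w ∈ partners h, (Wk h 2 ^ (r + 1)) u w := by
            simp only [pow_succ', Matrix.mul_apply]
            rw [Finset.sum_comm]
            simp only [Finset.mul_sum]

/-- Job H, the skeleton statement `pair_partner`, from the statements of the other jobs. -/
theorem pair_partner_of (h : ℕ) [NeZero h]
    (hgap : ∀ (r : ℕ), 1 ≤ r → 2 ^ r ≤ h → ∀ (w v : Fin 2 → ZMod (2 * h)),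
      w 1 = w 0 + (h : ZMod (2 * h)) → v 1 = v 0 + (h : ZMod (2 * h)) →
        (Kmat h 2 ^ r) w v = 0)
    (hfree : ∀ (z y : Fin 2 → ZMod (2 * h)), ¬ bad h 2 z → stepProb h 2 z y = Wk h 2 z y)
    (hcast : ∀ u v : ZMod (2 * h),
      (ZMod.cast u : ZMod h) = ZMod.cast v ↔ v = u ∨ v = u + (h : ZMod (2 * h)))
    (hsupp : ∀ (x : Fin 2 → ZMod (2 * h)), Function.Injective x → ∀ (s : ℕ)
      (y : Fin 2 → ZMod (2 * h)), (Kmat h 2 ^ s) x y ≠ 0 → Function.Injective y)
    (hnn : ∀ (s : ℕ) (x y : Fin 2 → ZMod (2 * h)), 0 ≤ (Kmat h 2 ^ s) x y)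
    (hsum : ∀ (s : ℕ) (x : Fin 2 → ZMod (2 * h)), ∑ y, (Kmat h 2 ^ s) x y = 1)
    (hWle : ∀ (m : ℕ), 2 ^ m ≤ 2 * h → ∀ p y : ZMod (2 * h), (Wmat h ^ m) p y ≤ 1 / 2 ^ m)
    (hprod : ∀ (m : ℕ) (z y : Fin 2 → ZMod (2 * h)),
      (Wk h 2 ^ m) z y = ∏ j, (Wmat h ^ m) (z j) (y j))
    (w0 : Fin 2 → ZMod (2 * h)) (hw : w0 0 ≠ w0 1) (m s : ℕ) (hm : 2 ^ m ≤ h) (hs : m ≤ s) :
    ∑ w ∈ univ.filter (fun w : Fin 2 → ZMod (2 * h) => w 1 = w 0 + (h : ZMod (2 * h))),
        (Kmat h 2 ^ s) w0 w ≤ 1 / 2 ^ m := by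
  change ∑ w ∈ partners h, (Kmat h 2 ^ s) w0 w ≤ 1 / 2 ^ m
  obtain ⟨d, rfl⟩ : ∃ d, s = d + m := ⟨s - m, by omega⟩
  have hstep : ∀ u : Fin 2 → ZMod (2 * h),
      (Kmat h 2 ^ d) w0 u * ∑ w ∈ partners h, (Kmat h 2 ^ m) u w
        ≤ (Kmat h 2 ^ d) w0 u * (1 / 2 ^ m) := by
    intro u
    by_cases hu0 : (Kmat h 2 ^ d) w0 u = 0
    · rw [hu0, zero_mul, zero_mul]
    · have huinj : Function.Injective u := hsupp w0 ((inj_two w0).mpr hw) d u hu0
      have h1 := chain_le_free h hgap hfree hcast hsupp m hm u ((inj_two u).mp huinj)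
      have h2 := free_partner h hWle hprod m hm u
      exact mul_le_mul_of_nonneg_left (h1.trans h2) (hnn d w0 u)
  calc ∑ w ∈ partners h, (Kmat h 2 ^ (d + m)) w0 w
      = ∑ u, (Kmat h 2 ^ d) w0 u * ∑ w ∈ partners h, (Kmat h 2 ^ m) u w := by
        simp only [pow_add, Matrix.mul_apply]
        rw [Finset.sum_comm]
        simp only [Finset.mul_sum]
    _ ≤ ∑ u, (Kmat h 2 ^ d) w0 u * (1 / 2 ^ m) := Finset.sum_le_sum fun u _ => hstep u
    _ = 1 / 2 ^ m := by
        rw [← Finset.sum_mul, hsum d w0, one_mul]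

end Vale.Agent.Lib.P162.H19
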