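import Mathlib
import Vale.Agent.Lib.P162.Defs

/-!
# P162 (Thorp shuffle), job C (corrected statement): powers of a product kernel

The kernel is wrapped in `Matrix.of`, so that `^` is the matrix power (on a bare lambda with a
type ascription Lean uses the pointwise power of functions).
-/

namespace Vale.Agent.Lib.P162.H19

open Finset BigOperators

/-- The `m`-th power of the product kernel is the product of the `m`-th powers. -/
theorem prodKernel_pow {α : Type*} [Fintype α] [DecidableEq α] (k : ℕ) (W : Matrix α α ℝ)
    (m : ℕ) (z y : Fin k → α) :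
    ((Matrix.of fun z y : Fin k → α => ∏ j, W (z j) (y j)) ^ m) z y
      = ∏ j, (W ^ m) (z j) (y j) := by
  induction m generalizing y with
  | zero =>
    simp only [pow_zero, Matrix.one_apply]
    rw [Finset.prod_ite_zero]
    simp only [Finset.prod_const_one, Finset.mem_univ, forall_true_left]
    congr 1
    exact propext funext_iff
  | succ m ih =>
    rw [pow_succ, Matrix.mul_apply]
    have e : ∀ u : Fin k → α,
        ((Matrix.of fun z y : Fin k → α => ∏ j, W (z j) (y j)) ^ m) z u
          * (Matrix.of fun z y : Fin k → α => ∏ j, W (z j) (y j)) u y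
        = ∏ j, ((W ^ m) (z j) (u j) * W (u j) (y j)) := by
      intro u
      rw [ih u, Matrix.of_apply, Finset.prod_mul_distrib]
    simp only [e]
    have hps := Fintype.prod_sum (fun (j : Fin k) (a : α) => (W ^ m) (z j) a * W a (y j))
    rw [← hps]
    refine Finset.prod_congr rfl fun j _ => ?_
    rw [pow_succ, Matrix.mul_apply]

/-- The free `k`-card kernel: its powers are products of the powers of the one-card kernel. -/
theorem Wk_pow (h k : ℕ) [NeZero h] (m : ℕ) (z y : Fin k → ZMod (2 * h)) :
    (Wk h k ^ m) z y = ∏ j, (Wmat h ^ m) (z j) (y j) :=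
  prodKernel_pow k (Wmat h) m z y

end Vale.Agent.Lib.P162.H19
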