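import Mathlib

/-!
# P162 (Thorp shuffle), job B: total variation of product laws (hybrid bound)
-/

namespace Vale.Agent.Lib.P162.H19

open Finset BigOperators

/-- Job B, exact skeleton statement. -/
theorem prod_tv {α : Type*} [Fintype α] [DecidableEq α] (k : ℕ) (a : Fin k → α → ℝ) (b : α → ℝ)
    (ha : ∀ j q, 0 ≤ a j q) (ha1 : ∀ j, ∑ q, a j q = 1) (hb : ∀ q, 0 ≤ b q)
    (hb1 : ∑ q, b q = 1) :
    ∑ y : Fin k → α, |∏ j, a j (y j) - ∏ j, b (y j)| ≤ ∑ j, ∑ q, |a j q - b q| := by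
  induction k with
  | zero => simp
  | succ k ih =>
    have hsum : ∑ y : Fin (k + 1) → α, |∏ j, a j (y j) - ∏ j, b (y j)|
        = ∑ q, ∑ y' : Fin k → α,
            |a 0 q * ∏ j : Fin k, a j.succ (y' j) - b q * ∏ j : Fin k, b (y' j)| := by
      rw [← (Fin.consEquiv (fun _ : Fin (k + 1) => α)).sum_comp, Fintype.sum_prod_type]
      refine Finset.sum_congr rfl fun q _ => Finset.sum_congr rfl fun y' _ => ?_
      simp [Fin.prod_univ_succ, Fin.consEquiv]
    have hP1 : ∑ y' : Fin k → α, ∏ j : Fin k, a j.succ (y' j) = 1 := by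
      rw [← Fintype.prod_sum]
      exact Finset.prod_eq_one fun j _ => ha1 j.succ
    have hpt : ∀ (q : α) (y' : Fin k → α),
        |a 0 q * ∏ j : Fin k, a j.succ (y' j) - b q * ∏ j : Fin k, b (y' j)|
          ≤ |a 0 q - b q| * ∏ j : Fin k, a j.succ (y' j)
            + b q * |∏ j : Fin k, a j.succ (y' j) - ∏ j : Fin k, b (y' j)| := by
      intro q y'
      have hP : 0 ≤ ∏ j : Fin k, a j.succ (y' j) :=
        Finset.prod_nonneg fun j _ => ha j.succ (y' j)
      have e : a 0 q * ∏ j : Fin k, a j.succ (y' j) - b q * ∏ j : Fin k, b (y' j)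
          = (a 0 q - b q) * ∏ j : Fin k, a j.succ (y' j)
            + b q * (∏ j : Fin k, a j.succ (y' j) - ∏ j : Fin k, b (y' j)) := by
        ring
      rw [e]
      refine (abs_add_le _ _).trans ?_
      rw [abs_mul, abs_mul, abs_of_nonneg hP, abs_of_nonneg (hb q)]
    rw [hsum, Fin.sum_univ_succ]
    calc ∑ q, ∑ y' : Fin k → α,
          |a 0 q * ∏ j : Fin k, a j.succ (y' j) - b q * ∏ j : Fin k, b (y' j)|
        ≤ ∑ q, ∑ y' : Fin k → α, (|a 0 q - b q| * ∏ j : Fin k, a j.succ (y' j)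
            + b q * |∏ j : Fin k, a j.succ (y' j) - ∏ j : Fin k, b (y' j)|) :=
          Finset.sum_le_sum fun q _ => Finset.sum_le_sum fun y' _ => hpt q y'
      _ = ∑ q, (|a 0 q - b q|
            + b q * ∑ y' : Fin k → α,
                |∏ j : Fin k, a j.succ (y' j) - ∏ j : Fin k, b (y' j)|) := by
          refine Finset.sum_congr rfl fun q _ => ?_
          rw [Finset.sum_add_distrib, ← Finset.mul_sum, ← Finset.mul_sum, hP1, mul_one]
      _ = ∑ q, |a 0 q - b q|
            + ∑ y' : Fin k → α, |∏ j : Fin k, a j.succ (y' j) - ∏ j : Fin k, b (y' j)| := by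
          rw [Finset.sum_add_distrib, ← Finset.sum_mul, hb1, one_mul]
      _ ≤ ∑ q, |a 0 q - b q| + ∑ j : Fin k, ∑ q, |a j.succ q - b q| :=
          add_le_add le_rfl
            (ih (fun j => a j.succ) (fun j q => ha j.succ q) (fun j => ha1 j.succ))

end Vale.Agent.Lib.P162.H19
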