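import Mathlib
import Vale.Agent.Lib.P162.Defs
import Vale.Agent.Lib.P162.RDefs
import Vale.Agent.Lib.P162.CVDefs
import Vale.Agent.Lib.P162.helper34.StepNewFree
import Vale.Agent.Lib.P162.helper36.MoveInj
import Vale.Agent.Lib.P162.helper93.Gap
import Vale.Agent.Lib.P162.helper95.KmatBasic

/-!
Pool job P162-CV7 (backup copy, seat helper19): coin level facts for the two-walker kernel.
Off partner states the two walkers move as two cards of the chain of j + 2 cards; from a partner
state the two-walker kernel dominates one half of that chain, and the walkers merge with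
probability at least one half.
-/

namespace Vale.Agent.Lib.P162.H19CV

open Finset BigOperators

theorem cv7_two_h (h : ℕ) : (2 : ZMod (2 * h)) * (h : ZMod (2 * h)) = 0 := H93.H93_two_h h

/-- Partners move to the two places of one pair. -/
theorem cv7_move_partner (h : ℕ) [NeZero h] (c : ZMod h → Bool) (p : ZMod (2 * h)) :
    move h c (p + (h : ZMod (2 * h))) = 4 * p + 1 - move h c p := by
  rw [defs_aux_move, defs_aux_move, H93.H93_partner_bits]
  have h2 := cv7_two_h h
  generalize xor (decide (h ≤ p.val)) (c (ZMod.cast p)) = β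
  cases β
  · simp only [Bool.not_false, if_true, Bool.false_eq_true, if_false]
    linear_combination h2
  · simp only [Bool.not_true, Bool.false_eq_true, if_false, if_true]
    linear_combination h2

/-- A new card that is the partner of an old card has a forced move. -/
theorem cv7_step_forced (h j : ℕ) [NeZero h] (z y : Fin (j + 1) → ZMod (2 * h)) (i : Fin j)
    (hz : z 0 = z i.succ + (h : ZMod (2 * h))) :
    stepProb h (j + 1) z y = (if y 0 = 4 * z i.succ + 1 - y i.succ then (1 : ℝ) else 0) *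
      stepProb h j (Fin.tail z) (Fin.tail y) := by
  rw [defs_aux_stepProb, defs_aux_stepProb]
  have hmove : ∀ c : ZMod h → Bool,
      move h c (z 0) = 4 * z i.succ + 1 - move h c (z i.succ) := by
    intro c
    rw [hz]
    exact cv7_move_partner h c (z i.succ)
  by_cases hP : y 0 = 4 * z i.succ + 1 - y i.succ
  · rw [if_pos hP, one_mul]
    have hfil : (univ.filter fun c : ZMod h → Bool => ∀ i', move h c (z i') = y i') =
        (univ.filter fun c : ZMod h → Bool =>
          ∀ i', move h c (Fin.tail z i') = Fin.tail y i') := by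
      apply Finset.filter_congr
      intro c _
      constructor
      · intro hc i'
        exact hc i'.succ
      · intro hc i'
        refine Fin.cases ?_ (fun i'' => hc i'') i'
        have hci : move h c (z i.succ) = y i.succ := hc i
        rw [hmove c, hci, hP]
    rw [hfil]
  · rw [if_neg hP, zero_mul]
    have hfil : (univ.filter fun c : ZMod h → Bool => ∀ i', move h c (z i') = y i') = ∅ := by
      apply Finset.filter_eq_empty_iff.mpr
      intro c _ hc
      apply hP
      rw [← hc 0, hmove c, hc i.succ]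
    rw [hfil, Finset.card_empty, Nat.cast_zero, zero_div]

theorem cv7_step_le_tail (h k : ℕ) [NeZero h] (z y : Fin (k + 1) → ZMod (2 * h)) :
    stepProb h (k + 1) z y ≤ stepProb h k (Fin.tail z) (Fin.tail y) := by
  rw [defs_aux_stepProb, defs_aux_stepProb]
  refine div_le_div_of_nonneg_right (Nat.cast_le.mpr (Finset.card_le_card ?_)) (by positivity)
  intro c hc
  rw [Finset.mem_filter] at hc ⊢
  exact ⟨hc.1, fun i => hc.2 i.succ⟩

theorem cv7_step_le_dropTwo (h j : ℕ) [NeZero h] (u y : Fin (j + 2) → ZMod (2 * h)) :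
    stepProb h (j + 2) u y ≤ stepProb h (j + 1) (dropTwo u) (dropTwo y) := by
  rw [defs_aux_stepProb, defs_aux_stepProb]
  refine div_le_div_of_nonneg_right (Nat.cast_le.mpr (Finset.card_le_card ?_)) (by positivity)
  intro c hc
  rw [Finset.mem_filter] at hc ⊢
  refine ⟨hc.1, fun i => ?_⟩
  refine Fin.cases ?_ (fun i' => ?_) i
  · exact hc.2 0
  · exact hc.2 i'.succ.succ

theorem cv7_W_dich (h : ℕ) [NeZero h] (p q : ZMod (2 * h)) :
    Wmat h p q = 0 ∨ (1 / 2 : ℝ) ≤ Wmat h p q := by
  rw [defs_aux_Wmat]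
  by_cases h1 : q = 2 * p
  · right
    rw [if_pos h1]
    by_cases h2 : q = 2 * p + 1
    · rw [if_pos h2]
      norm_num
    · rw [if_neg h2]
      norm_num
  · rw [if_neg h1]
    by_cases h2 : q = 2 * p + 1
    · right
      rw [if_pos h2]
      norm_num
    · left
      rw [if_neg h2]
      norm_num

theorem cv7_W_row_sum (h : ℕ) [NeZero h] (p : ZMod (2 * h)) : ∑ q, Wmat h p q = 1 := by
  rw [Finset.sum_congr rfl (fun q _ => defs_aux_Wmat h p q), Finset.sum_add_distrib,
    Finset.sum_ite_eq' univ (2 * p) (fun _ => (1 / 2 : ℝ)),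
    Finset.sum_ite_eq' univ (2 * p + 1) (fun _ => (1 / 2 : ℝ)), if_pos (mem_univ _),
    if_pos (mem_univ _)]
  norm_num

theorem cv7_W_partner (h : ℕ) [NeZero h] (p q : ZMod (2 * h)) :
    Wmat h (p + (h : ZMod (2 * h))) q = Wmat h p q := by
  have e : 2 * (p + (h : ZMod (2 * h))) = 2 * p := by linear_combination cv7_two_h h
  rw [defs_aux_Wmat, defs_aux_Wmat, e]

theorem cv7_real_partner (w1 w2 k K2 : ℝ) (h2nn : 0 ≤ K2) (hknn : 0 ≤ k) (hd : K2 ≤ w1 * k)
    (ht : K2 ≤ w2 * k) (hw1 : w1 = 0 ∨ 1 / 2 ≤ w1) (hw2 : w2 = 0 ∨ 1 / 2 ≤ w2) :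
    1 / 2 * K2 ≤ w1 * w2 * k := by
  rcases hw1 with h1 | h1
  · rw [h1, zero_mul] at hd
    rw [h1, zero_mul, zero_mul, le_antisymm hd h2nn, mul_zero]
  · rcases hw2 with h2 | h2
    · rw [h2, zero_mul] at ht
      rw [h2, mul_zero, zero_mul, le_antisymm ht h2nn, mul_zero]
    · have hwk : 0 ≤ w2 * k := mul_nonneg (by linarith) hknn
      calc 1 / 2 * K2 ≤ 1 / 2 * (w2 * k) := by linarith
        _ ≤ w1 * (w2 * k) := mul_le_mul_of_nonneg_right h1 hwk
        _ = w1 * w2 * k := by ring

theorem cv7_real_free (F k1 k0 K2 : ℝ) (h1 : K2 = F * k1) (h2 : K2 ≤ k1) (h3 : k1 ≤ k0) :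
    K2 ≤ F * k0 * k1 / k0 := by
  by_cases hk : k0 = 0
  · rw [hk, div_zero]
    rw [hk] at h3
    linarith
  · rw [h1]
    apply le_of_eq
    field_simp

theorem cv7_real_merge (w k : ℝ) (hw : w = 0 ∨ 1 / 2 ≤ w) (hk : 0 ≤ k) :
    1 / 2 * w * k ≤ w * w * k := by
  refine mul_le_mul_of_nonneg_right ?_ hk
  rcases hw with h0 | h0
  · rw [h0]
    norm_num
  · exact mul_le_mul_of_nonneg_right h0 (by linarith)

theorem cv7_real_quot (a b k : ℝ) : a * k * (b * k) / k = a * b * k := by
  by_cases hk : k = 0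
  · rw [hk]
    simp
  · field_simp

theorem cv7_not_newBad_dropTwo (h j : ℕ) [NeZero h] (u : Fin (j + 2) → ZMod (2 * h))
    (hu : Function.Injective u) (hp : u 1 = u 0 + (h : ZMod (2 * h))) :
    ¬ newBad h j (dropTwo u) := by
  rintro ⟨i, hi⟩
  have hi' : (ZMod.cast (u 0) : ZMod h) = ZMod.cast (u i.succ.succ) := hi
  rcases (H36.cast_eq_iff h (u 0) (u i.succ.succ)).mp hi' with e | e
  · exact Fin.succ_ne_zero _ (hu e)
  · rw [← hp] at e
    have h1 := hu e
    rw [← Fin.succ_zero_eq_one] at h1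
    exact Fin.succ_ne_zero _ (Fin.succ_injective _ h1)

theorem cv7_not_newBad_tail (h j : ℕ) [NeZero h] (u : Fin (j + 2) → ZMod (2 * h))
    (hu : Function.Injective u) (hp : u 1 = u 0 + (h : ZMod (2 * h))) :
    ¬ newBad h j (Fin.tail u) := by
  rintro ⟨i, hi⟩
  have hi' : (ZMod.cast (u 1) : ZMod h) = ZMod.cast (u i.succ.succ) := hi
  rcases (H36.cast_eq_iff h (u 1) (u i.succ.succ)).mp hi' with e | e
  · have h1 := hu e
    rw [← Fin.succ_zero_eq_one] at h1
    exact Fin.succ_ne_zero _ (Fin.succ_injective _ h1)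
  · rw [hp, add_assoc, H36.half_add_half, add_zero] at e
    exact Fin.succ_ne_zero _ (hu e)

/-- From a partner state the two walkers move freely and independently given the old cards. -/
theorem cv7_Q_partner_eq (h j : ℕ) [NeZero h] (u y : Fin (j + 2) → ZMod (2 * h))
    (hu : Function.Injective u) (hp : u 1 = u 0 + (h : ZMod (2 * h))) :
    Qmat h j u y = Wmat h (u 0) (y 0) * Wmat h (u 1) (y 1) *
      stepProb h j (Fin.tail (Fin.tail u)) (Fin.tail (Fin.tail y)) := by
  have hd : stepProb h (j + 1) (dropTwo u) (dropTwo y) =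
      Wmat h (u 0) (y 0) * stepProb h j (Fin.tail (Fin.tail u)) (Fin.tail (Fin.tail y)) :=
    H34.step_new_free h j (dropTwo u) (dropTwo y) (cv7_not_newBad_dropTwo h j u hu hp)
  have ht : stepProb h (j + 1) (Fin.tail u) (Fin.tail y) =
      Wmat h (u 1) (y 1) * stepProb h j (Fin.tail (Fin.tail u)) (Fin.tail (Fin.tail y)) :=
    H34.step_new_free h j (Fin.tail u) (Fin.tail y) (cv7_not_newBad_tail h j u hu hp)
  rw [Qmat_apply, Kmat_apply_r, Kmat_apply_r, Kmat_apply_r, hd, ht, cv7_real_quot]

theorem Q_ge_K (h j : ℕ) [NeZero h] (u y : Fin (j + 2) → ZMod (2 * h))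
    (hu : Function.Injective u) (hy : y 0 ≠ y 1) :
    (if u 1 = u 0 + (h : ZMod (2 * h)) then (1 / 2 : ℝ) else 1) * Kmat h (j + 2) u y
      ≤ Qmat h j u y := by
  have _hy := hy
  have hK2 : Kmat h (j + 2) u y = stepProb h (j + 2) u y := rfl
  have h2nn : 0 ≤ stepProb h (j + 2) u y := H95.stepProb_nonneg h (j + 2) u y
  have h0nn : 0 ≤ stepProb h j (Fin.tail (Fin.tail u)) (Fin.tail (Fin.tail y)) :=
    H95.stepProb_nonneg h j _ _
  rw [hK2]
  by_cases hp : u 1 = u 0 + (h : ZMod (2 * h))
  · rw [if_pos hp, cv7_Q_partner_eq h j u y hu hp]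
    have hd : stepProb h (j + 2) u y ≤
        Wmat h (u 0) (y 0) * stepProb h j (Fin.tail (Fin.tail u)) (Fin.tail (Fin.tail y)) := by
      have h1 := cv7_step_le_dropTwo h j u y
      rw [H34.step_new_free h j (dropTwo u) (dropTwo y)
        (cv7_not_newBad_dropTwo h j u hu hp)] at h1
      exact h1
    have ht : stepProb h (j + 2) u y ≤
        Wmat h (u 1) (y 1) * stepProb h j (Fin.tail (Fin.tail u)) (Fin.tail (Fin.tail y)) := by
      have h1 := cv7_step_le_tail h (j + 1) u y
      rw [H34.step_new_free h j (Fin.tail u) (Fin.tail y)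
        (cv7_not_newBad_tail h j u hu hp)] at h1
      exact h1
    exact cv7_real_partner _ _ _ _ h2nn h0nn hd ht (cv7_W_dich h (u 0) (y 0))
      (cv7_W_dich h (u 1) (y 1))
  · rw [if_neg hp, one_mul, Qmat_apply, Kmat_apply_r, Kmat_apply_r, Kmat_apply_r]
    obtain ⟨F, hF1, hF2⟩ : ∃ F : ℝ,
        stepProb h (j + 2) u y = F * stepProb h (j + 1) (Fin.tail u) (Fin.tail y) ∧
        stepProb h (j + 1) (dropTwo u) (dropTwo y) =
          F * stepProb h j (Fin.tail (Fin.tail u)) (Fin.tail (Fin.tail y)) := by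
      by_cases hnb : newBad h j (dropTwo u)
      · obtain ⟨i, hi⟩ := hnb
        have hi' : (ZMod.cast (u 0) : ZMod h) = ZMod.cast (u i.succ.succ) := hi
        have e : u 0 = u i.succ.succ + (h : ZMod (2 * h)) := by
          rcases (H36.cast_eq_iff h (u 0) (u i.succ.succ)).mp hi' with e | e
          · exact absurd (hu e) (Fin.succ_ne_zero _)
          · rw [e, add_assoc, H36.half_add_half, add_zero]
        exact ⟨_, cv7_step_forced h (j + 1) u y i.succ e,
          cv7_step_forced h j (dropTwo u) (dropTwo y) i e⟩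
      · have hnb2 : ¬ newBad h (j + 1) u := by
          rintro ⟨i, hi⟩
          revert hi
          refine Fin.cases ?_ (fun i' => ?_) i
          · intro hi
            have hi' : (ZMod.cast (u 0) : ZMod h) = ZMod.cast (u 1) := hi
            rcases (H36.cast_eq_iff h (u 0) (u 1)).mp hi' with e | e
            · have h1 := hu e
              rw [← Fin.succ_zero_eq_one] at h1
              exact Fin.succ_ne_zero _ h1
            · exact hp e
          · intro hi
            exact hnb ⟨i', hi⟩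
        exact ⟨_, H34.step_new_free h (j + 1) u y hnb2,
          H34.step_new_free h j (dropTwo u) (dropTwo y) hnb⟩
    rw [hF2]
    exact cv7_real_free F _ _ _ hF1 (cv7_step_le_tail h (j + 1) u y)
      (cv7_step_le_tail h j (Fin.tail u) (Fin.tail y))

theorem Q_merge (h j : ℕ) [NeZero h] (u : Fin (j + 2) → ZMod (2 * h))
    (hu : Function.Injective u) (hp : u 1 = u 0 + (h : ZMod (2 * h))) :
    (1 / 2 : ℝ) ≤ ∑ v : Fin j → ZMod (2 * h), ∑ x : ZMod (2 * h),
      Qmat h j u (Fin.cons x (Fin.cons x v) : Fin (j + 2) → ZMod (2 * h)) := by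
  have hterm : ∀ (v : Fin j → ZMod (2 * h)) (x : ZMod (2 * h)),
      (1 / 2 : ℝ) * Wmat h (u 0) x * stepProb h j (Fin.tail (Fin.tail u)) v ≤
        Qmat h j u (Fin.cons x (Fin.cons x v) : Fin (j + 2) → ZMod (2 * h)) := by
    intro v x
    have hq : Qmat h j u (Fin.cons x (Fin.cons x v) : Fin (j + 2) → ZMod (2 * h)) =
        Wmat h (u 0) x * Wmat h (u 1) x * stepProb h j (Fin.tail (Fin.tail u)) v :=
      cv7_Q_partner_eq h j u (Fin.cons x (Fin.cons x v)) hu hp
    rw [hq, hp, cv7_W_partner]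
    exact cv7_real_merge _ _ (cv7_W_dich h (u 0) x) (H95.stepProb_nonneg h j _ v)
  have hsum : ∑ v : Fin j → ZMod (2 * h), ∑ x : ZMod (2 * h),
      (1 / 2 : ℝ) * Wmat h (u 0) x * stepProb h j (Fin.tail (Fin.tail u)) v = 1 / 2 := by
    have hv : ∀ v : Fin j → ZMod (2 * h), ∑ x : ZMod (2 * h),
        (1 / 2 : ℝ) * Wmat h (u 0) x * stepProb h j (Fin.tail (Fin.tail u)) v =
        (1 / 2) * stepProb h j (Fin.tail (Fin.tail u)) v := by
      intro v
      rw [← Finset.sum_mul, ← Finset.mul_sum, cv7_W_row_sum, mul_one]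
    rw [Finset.sum_congr rfl (fun v _ => hv v), ← Finset.mul_sum, H95.stepProb_sum, mul_one]
  rw [← hsum]
  exact Finset.sum_le_sum (fun v _ => Finset.sum_le_sum (fun x _ => hterm v x))

end Vale.Agent.Lib.P162.H19CV
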