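import Mathlib
import Vale.Agent.Lib.P162.Defs
import Vale.Agent.Lib.P162.RDefs
import Vale.Agent.Lib.P162.Law
import Vale.Agent.Lib.P162.helper22.WmatPow
import Vale.Agent.Lib.P162.helper77.CountClose
import Vale.Agent.Lib.P162.helper22.BmatPow
import Vale.Agent.Lib.P162.helper7.NewBad
import Vale.Agent.Lib.P162.helper81.OffOccTv
import Vale.Agent.Lib.P162.helper90.DefectContract
import Vale.Agent.Lib.P162.helper47.TvStep
import Vale.Agent.Lib.P162.helper57.Final
import Vale.Agent.Lib.P162.helper19.BlockDefect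

/-!
# P162, Theorem R (assembly, helper19 copy)

For every even deck size `2 * h`, every `k`, every `r ≥ 1` and every `T ≥ 3 r ⌈log₂ (2 h)⌉`:
after `T` Thorp shuffles the joint law of the positions of `k` cards that start in distinct
positions is within total variation distance `(k / 2) (18 k ⌈log₂ (2 h)⌉ / (2 h)) ^ r` of the
uniform law on `k`-tuples of distinct positions.
-/

namespace Vale.Agent.Lib.P162.H19

open Finset BigOperators

theorem Wmat_pow_close (h : ℕ) [NeZero h] (m : ℕ) (p y : ZMod (2 * h)) :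
    |(Wmat h ^ m) p y - 1 / (2 * h : ℝ)| ≤ 1 / 2 ^ m := by
  rw [H22.Wmat_pow]
  exact H77.count_close h m ((2 : ZMod (2 * h)) ^ m * p) y

/-- **One block**: from every injective start the defect after `3 L` shuffles is small. -/
theorem block_defect (h j : ℕ) [NeZero h] (u : Fin (j + 1) → ZMod (2 * h))
    (hu : Function.Injective u) :
    defect h j (3 * Nat.clog 2 (2 * h)) u
      ≤ (16 * (Nat.clog 2 (2 * h) : ℝ) * j + 1 + 2 * j) / (2 * h : ℝ) := by
  classical
  exact block_defect_of h j (H22.Bmat_pow h j) (H22.Bmat_nonneg h j) (H22.Bmat_sum h j)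
    (fun x hx m s hm hs => H7.new_bad_prob h j x hx m s hm hs)
    (fun v hv hj => H81.off_occ_tv h j v hv hj) (Wmat_pow_close h) u hu

theorem eta_nonneg (h L j : ℕ) : 0 ≤ (16 * (L : ℝ) * j + 1 + 2 * j) / (2 * h : ℝ) := by
  positivity

/-- **`r` blocks**: the defect after `3 r L` shuffles is at most the `r`-th power. -/
theorem defect_pow (h j : ℕ) [NeZero h] (r : ℕ) (hr : 1 ≤ r) (z : Fin (j + 1) → ZMod (2 * h))
    (hz : Function.Injective z) :
    defect h j (3 * r * Nat.clog 2 (2 * h)) z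
      ≤ ((16 * (Nat.clog 2 (2 * h) : ℝ) * j + 1 + 2 * j) / (2 * h : ℝ)) ^ r := by
  induction r, hr using Nat.le_induction with
  | base =>
    rw [pow_one, mul_one]
    exact block_defect h j z hz
  | succ r hr ih =>
    have e : 3 * (r + 1) * Nat.clog 2 (2 * h)
        = 3 * r * Nat.clog 2 (2 * h) + 3 * Nat.clog 2 (2 * h) := by ring
    rw [e, pow_succ']
    refine le_trans (H90.defect_contract_of h j (lump_tail_cons h j) (comm_new h j)
      (3 * Nat.clog 2 (2 * h)) _ (fun u hu => block_defect h j u hu) z hz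
      (3 * r * Nat.clog 2 (2 * h))) ?_
    exact mul_le_mul_of_nonneg_left ih (eta_nonneg h _ j)

/-- **Adding the cards one at a time.** -/
theorem tv_sum (h : ℕ) [NeZero h] (r : ℕ) (hr : 1 ≤ r) (k : ℕ) :
    ∀ (x : Fin k → ZMod (2 * h)), Function.Injective x →
      ∑ y, |(Kmat h k ^ (3 * r * Nat.clog 2 (2 * h))) x y - unifInj h k y|
        ≤ ∑ j ∈ range k,
            ((16 * (Nat.clog 2 (2 * h) : ℝ) * j + 1 + 2 * j) / (2 * h : ℝ)) ^ r := by
  induction k with
  | zero =>
    intro x _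
    rw [Finset.range_zero, Finset.sum_empty]
    apply le_of_eq
    apply Finset.sum_eq_zero
    intro y _
    have h1 : (Kmat h 0 ^ (3 * r * Nat.clog 2 (2 * h))) x y = 1 := by
      have h0 := H95.Kmat_pow_sum h 0 (3 * r * Nat.clog 2 (2 * h)) x
      rw [Fintype.sum_eq_single y (fun y' hy' => absurd (Subsingleton.elim y' y) hy')] at h0
      exact h0
    have h2 : unifInj h 0 y = 1 := by
      unfold unifInj
      rw [if_pos (Function.injective_of_subsingleton y)]
      simp
    rw [h1, h2, sub_self, abs_zero]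
  | succ j ih =>
    intro z hz
    have htz : Function.Injective (Fin.tail z) := fun a b e => Fin.succ_injective _ (hz e)
    rw [Finset.sum_range_succ]
    refine le_trans (H47.tv_step h j (3 * r * Nat.clog 2 (2 * h)) z hz) ?_
    rw [add_comm]
    exact add_le_add (ih (Fin.tail z) htz) (defect_pow h j r hr z hz)

theorem thmR_num (L j k : ℕ) (hL : 1 ≤ L) (hjk : j < k) (N : ℝ) (hN : 0 < N) :
    (16 * (L : ℝ) * j + 1 + 2 * j) / N ≤ 18 * k * L / N := by
  have hL' : (1 : ℝ) ≤ L := by exact_mod_cast hL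
  have hjk' : (j : ℝ) + 1 ≤ k := by exact_mod_cast hjk
  have hj0 : (0 : ℝ) ≤ j := Nat.cast_nonneg j
  apply div_le_div_of_nonneg_right _ hN.le
  nlinarith [mul_nonneg hj0 (sub_nonneg.mpr hL'), mul_nonneg (sub_nonneg.mpr hjk')
    (le_trans zero_le_one hL')]

/-- **Theorem R**, matrix form, at time `3 r L`. -/
theorem thmR_pow (h k r : ℕ) [NeZero h] (hr : 1 ≤ r) (x : Fin k → ZMod (2 * h))
    (hx : Function.Injective x) :
    (1 / 2 : ℝ) * ∑ y, |(Kmat h k ^ (3 * r * Nat.clog 2 (2 * h))) x y - unifInj h k y|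
      ≤ (k / 2 : ℝ) * (18 * k * Nat.clog 2 (2 * h) / (2 * h : ℝ)) ^ r := by
  have hhpos : 0 < h := Nat.pos_of_ne_zero (NeZero.ne h)
  have hL1 : 1 ≤ Nat.clog 2 (2 * h) := Nat.clog_pos (by norm_num) (by omega)
  have hN : (0 : ℝ) < 2 * (h : ℝ) := by
    have : (0 : ℝ) < h := by exact_mod_cast hhpos
    positivity
  have h2 : ∑ j ∈ range k,
        ((16 * (Nat.clog 2 (2 * h) : ℝ) * j + 1 + 2 * j) / (2 * h : ℝ)) ^ r
      ≤ (k : ℝ) * (18 * k * Nat.clog 2 (2 * h) / (2 * h : ℝ)) ^ r := by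
    refine le_trans (Finset.sum_le_sum (fun j hj => pow_le_pow_left₀ (eta_nonneg h _ j)
      (thmR_num (Nat.clog 2 (2 * h)) j k hL1 (Finset.mem_range.mp hj) _ hN) r)) ?_
    rw [Finset.sum_const, Finset.card_range, nsmul_eq_mul]
  calc (1 / 2 : ℝ) * ∑ y, |(Kmat h k ^ (3 * r * Nat.clog 2 (2 * h))) x y - unifInj h k y|
      ≤ (1 / 2 : ℝ) * ((k : ℝ) * (18 * k * Nat.clog 2 (2 * h) / (2 * h : ℝ)) ^ r) :=
        mul_le_mul_of_nonneg_left (le_trans (tv_sum h r hr k x hx) h2) (by norm_num)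
    _ = (k / 2 : ℝ) * (18 * k * Nat.clog 2 (2 * h) / (2 * h : ℝ)) ^ r := by ring

/-- **Theorem R** for the explicit law of the tracked cards and every `T ≥ 3 r ⌈log₂ (2 h)⌉`. -/
theorem thmR_law (h k r : ℕ) [NeZero h] (hr : 1 ≤ r) (x : Fin k → ZMod (2 * h))
    (hx : Function.Injective x) (T : ℕ) (hT : 3 * r * Nat.clog 2 (2 * h) ≤ T) :
    (1 / 2 : ℝ) * ∑ y, |trackedLaw h k T x y - unifInj h k y|
      ≤ (k / 2 : ℝ) * (18 * k * Nat.clog 2 (2 * h) / (2 * h : ℝ)) ^ r := by
  obtain ⟨t, rfl⟩ := Nat.exists_eq_add_of_le hT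
  have h1 : ∑ y, |trackedLaw h k (3 * r * Nat.clog 2 (2 * h) + t) x y - unifInj h k y|
      ≤ ∑ y, |(Kmat h k ^ (3 * r * Nat.clog 2 (2 * h))) x y - unifInj h k y| := by
    have e : ∀ y, trackedLaw h k (3 * r * Nat.clog 2 (2 * h) + t) x y
        = (Kmat h k ^ (3 * r * Nat.clog 2 (2 * h) + t)) x y := fun y => H6.law_eq_pow h k _ x y
    rw [Finset.sum_congr rfl (fun y _ => by rw [e y])]
    exact H57.tv_mono (Kmat h k) (fun z y => H95.stepProb_nonneg h k z y)
      (fun z => H95.stepProb_sum h k z) (unifInj h k) (H52.unif_stationary h k) x _ t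
  exact le_trans (mul_le_mul_of_nonneg_left h1 (by norm_num)) (thmR_pow h k r hr x hx)

end Vale.Agent.Lib.P162.H19
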